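import Vale.Agent.P147.ZeroOne

/-!
# Prefixes, the Markov property, locality and independence
-/

namespace Vale.Agent.P147.Balanced

open MeasureTheory Set Finset Filter
open scoped ENNReal

variable {d : ℕ}

/-- The path from time `n` on. -/
def shiftP (n : ℕ) (X : ℕ → Site d) : ℕ → Site d := fun i => X (n + i)

lemma measurable_shiftP (n : ℕ) : Measurable (shiftP (d := d) n) :=
  measurable_pi_lambda _ fun i => measurable_pi_apply (n + i)

/-- The extension of a finite path by its last site. -/
def ext {n : ℕ} (a : Fin (n + 1) → Site d) : ℕ → Site d :=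
  fun i => a ⟨min i n, Nat.lt_succ_of_le (min_le_right i n)⟩

/-- The first `n + 1` sites. -/
def res (n : ℕ) (X : ℕ → Site d) : Fin (n + 1) → Site d := fun i => X i

lemma ext_res_apply {n i : ℕ} (h : i ≤ n) (X : ℕ → Site d) : ext (res n X) i = X i := by
  simp [ext, res, min_eq_left h]

lemma pre_ext {n : ℕ} (a : Fin (n + 1) → Site d) : pre n (ext a) = res n ⁻¹' {a} := by
  ext X
  simp only [pre, Set.mem_setOf_eq, Set.mem_preimage, Set.mem_singleton_iff]
  constructor
  · intro h
    funext i
    have := h i (Nat.le_of_lt_succ i.2)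
    simp only [ext, min_eq_left (Nat.le_of_lt_succ i.2)] at this
    exact this
  · rintro rfl i hi
    exact (ext_res_apply hi X).symm

/-- A quantity determined by the first `n + 1` sites. -/
def Prefix {β : Type*} (n : ℕ) (F : (ℕ → Site d) → β) : Prop :=
  ∀ X Y, (∀ i ≤ n, X i = Y i) → F X = F Y

lemma Prefix.eq_on_pre {β : Type*} {n : ℕ} {F : (ℕ → Site d) → β} (hF : Prefix n F)
    {γ X : ℕ → Site d} (hX : X ∈ pre n γ) : F X = F γ := hF X γ hX

lemma lintegral_eq_tsum (ν : Measure (ℕ → Site d)) (n : ℕ) (F : (ℕ → Site d) → ℝ≥0∞) :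
    ∫⁻ X, F X ∂ν = ∑' a : Fin (n + 1) → Site d, ∫⁻ X in pre n (ext a), F X ∂ν := by
  rw [← lintegral_iUnion (fun a => measurableSet_pre _ _)]
  · rw [show (⋃ a : Fin (n + 1) → Site d, pre n (ext a)) = Set.univ by
      simp_rw [pre_ext]
      rw [← Set.preimage_iUnion, Set.iUnion_of_singleton, Set.preimage_univ], Measure.restrict_univ]
  · intro a b hab
    simp only [Function.onFun, pre_ext]
    exact Disjoint.preimage _ (Set.disjoint_singleton.2 hab)

lemma lintegral_prefix (ν : Measure (ℕ → Site d)) {n : ℕ} {F : (ℕ → Site d) → ℝ≥0∞}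
    (hF : Prefix n F) :
    ∫⁻ X, F X ∂ν = ∑' a : Fin (n + 1) → Site d, F (ext a) * ν (pre n (ext a)) := by
  rw [lintegral_eq_tsum ν n]
  refine tsum_congr fun a => ?_
  rw [setLIntegral_congr_fun (g := fun _ => F (ext a)) (measurableSet_pre _ _)
    fun X hX => hF.eq_on_pre hX, setLIntegral_const]

variable [Nonempty (Fin d)] {ω : Env d}

/-- The Markov property at a fixed time. -/
theorem law_markov (hω : Elliptic ω) {A : Set (ℕ → Site d)} (hA : MeasurableSet A) :
    ∀ (n : ℕ) (γ : ℕ → Site d) (x : Site d),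
      law ω x (shiftP n ⁻¹' A ∩ pre n γ) = law ω x (pre n γ) * law ω (γ n) A := by
  intro n
  induction n with
  | zero =>
    intro γ x
    have hs : shiftP 0 ⁻¹' A = A := by
      ext X
      have : shiftP 0 X = X := funext fun i => by simp [shiftP]
      simp [this]
    rw [hs]
    by_cases h : γ 0 = x
    · have h1 : ∀ᵐ X ∂law ω x, X ∈ pre 0 γ := by
        filter_upwards [ae_law_zero ω x] with X hX i hi
        obtain rfl : i = 0 := by omega
        rw [hX, h]
      have h2 : (A ∩ pre 0 γ : Set (ℕ → Site d)) =ᵐ[law ω x] A := by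
        filter_upwards [h1] with X hX
        exact propext ⟨fun hm => hm.1, fun hm => ⟨hm, hX⟩⟩
      rw [measure_congr h2, h, (mem_ae_iff_prob_eq_one (measurableSet_pre _ _)).1 h1, one_mul]
    · have h1 : law ω x (pre 0 γ) = 0 := by
        refine measure_mono_null (t := {X | ¬X 0 = x}) (fun X hX hX0 => h ?_) (ae_law_zero ω x)
        rw [← hX 0 le_rfl, hX0]
      rw [h1, zero_mul]
      exact measure_mono_null Set.inter_subset_right h1
  | succ n ih =>
    intro γ x
    have hS : cons x ⁻¹' (shiftP (n + 1) ⁻¹' A) = shiftP n ⁻¹' A := by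
      ext X
      have : shiftP (n + 1) (cons x X) = shiftP n X := by
        funext i
        simp only [shiftP, Nat.add_right_comm n 1 i]
        rfl
      simp [this]
    have hmeas := (measurable_shiftP (n + 1) hA).inter (measurableSet_pre (n + 1) γ)
    rw [law_step hω x hmeas, law_step hω x (measurableSet_pre (n + 1) γ), Set.preimage_inter, hS,
      Finset.sum_mul]
    refine Finset.sum_congr rfl fun e _ => ?_
    by_cases h : γ 0 = x
    · have hp : cons x ⁻¹' pre (n + 1) γ = pre n fun i => γ (i + 1) := by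
        ext X
        constructor
        · exact fun hX i hi => hX (i + 1) (by omega)
        · intro hX i hi
          cases i with
          | zero => exact h.symm
          | succ i => exact hX i (by omega)
      rw [hp, ih, mul_assoc]
    · have hp : cons x ⁻¹' pre (n + 1) γ = ∅ := by
        ext X
        refine iff_of_false (fun hX => h ?_) (Set.notMem_empty X)
        exact (hX 0 (Nat.zero_le _)).symm
      simp [hp]

/-- The Markov property, integral form. -/
theorem lintegral_markov (hω : Elliptic ω) {x : Site d} {n : ℕ} {F : (ℕ → Site d) → ℝ≥0∞}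
    (hF : Prefix n F) {G : Site d → (ℕ → Site d) → ℝ≥0∞} (hG : ∀ y, Measurable (G y)) :
    ∫⁻ X, F X * G (X n) (shiftP n X) ∂law ω x =
      ∫⁻ X, F X * (∫⁻ Y, G (X n) Y ∂law ω (X n)) ∂law ω x := by
  rw [lintegral_eq_tsum _ n, lintegral_eq_tsum _ n]
  refine tsum_congr fun a => ?_
  set γ := ext a
  have hmap : ((law ω x).restrict (pre n γ)).map (shiftP n) =
      law ω x (pre n γ) • law ω (γ n) := by
    refine Measure.ext fun s hs => ?_
    rw [Measure.map_apply (measurable_shiftP n) hs,
      Measure.restrict_apply (measurable_shiftP n hs), law_markov hω hs, Measure.smul_apply,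
      smul_eq_mul]
  calc ∫⁻ X in pre n γ, F X * G (X n) (shiftP n X) ∂law ω x
      = ∫⁻ X in pre n γ, F γ * G (γ n) (shiftP n X) ∂law ω x :=
        setLIntegral_congr_fun (measurableSet_pre _ _) fun X hX => by
          rw [hF.eq_on_pre hX, hX n le_rfl]
    _ = F γ * ∫⁻ Y, G (γ n) Y ∂((law ω x).restrict (pre n γ)).map (shiftP n) := by
        have hm : Measurable fun X => G (γ n) (shiftP n X) := (hG _).comp (measurable_shiftP n)
        rw [lintegral_map (hG _) (measurable_shiftP n), lintegral_const_mul _ hm]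
    _ = F γ * (∫⁻ Y, G (γ n) Y ∂law ω (γ n)) * law ω x (pre n γ) := by
        rw [hmap, lintegral_smul_measure, smul_eq_mul]
        ring
    _ = _ := by
        rw [← setLIntegral_const]
        exact setLIntegral_congr_fun (measurableSet_pre _ _) fun X hX => by
          rw [hF.eq_on_pre hX, hX n le_rfl]

/-! ## Lyapunov functions -/

theorem lintegral_tsum_le (hω : Elliptic ω) {W V : Site d → ℝ≥0∞}
    (h : ∀ x, W x + ∑ e, ENNReal.ofReal (ω x e) * V (x + vec e) ≤ V x) (x : Site d) :
    ∫⁻ X, ∑' n, W (X n) ∂law ω x ≤ V x := by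
  have hmeas : ∀ n : ℕ, Measurable fun X : ℕ → Site d => W (X n) := fun n =>
    (measurable_of_countable W).comp (measurable_pi_apply n)
  rw [lintegral_tsum fun n => (hmeas n).aemeasurable, ENNReal.tsum_eq_iSup_nat]
  refine iSup_le fun n => ?_
  induction n generalizing x with
  | zero => simp
  | succ n ih =>
    rw [Finset.sum_range_succ', add_comm]
    refine le_trans (add_le_add ?_ ?_) (h x)
    · rw [lintegral_congr_ae (g := fun _ => W x) ((ae_law_zero ω x).mono fun X hX => by
        simp only [hX])]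
      simp
    · calc ∑ i ∈ Finset.range n, ∫⁻ X, W (X (i + 1)) ∂law ω x
          = ∑ e, ENNReal.ofReal (ω x e) * ∑ i ∈ Finset.range n,
              ∫⁻ X, W (X i) ∂law ω (x + vec e) := by
            simp only [Finset.mul_sum]
            rw [Finset.sum_comm]
            refine Finset.sum_congr rfl fun i _ => ?_
            rw [lintegral_law hω x (hmeas (i + 1))]
            rfl
        _ ≤ _ := Finset.sum_le_sum fun e _ => mul_le_mul_right (ih _) _

theorem law_visit_le (hω : Elliptic ω) {V : Site d → ℝ≥0∞} {z : Site d} (hz : 1 ≤ V z)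
    (h : ∀ x, ∑ e, ENNReal.ofReal (ω x e) * V (x + vec e) ≤ V x) (x : Site d) :
    law ω x {X | ∃ n, X n = z} ≤ V x := by
  have hU : {X : ℕ → Site d | ∃ n, X n = z} = ⋃ N, {X | ∃ n ≤ N, X n = z} := by
    ext X
    simp only [Set.mem_setOf_eq, Set.mem_iUnion]
    exact ⟨fun ⟨n, hn⟩ => ⟨n, n, le_rfl, hn⟩, fun ⟨_, n, _, hn⟩ => ⟨n, hn⟩⟩
  have hm : ∀ N, MeasurableSet {X : ℕ → Site d | ∃ n ≤ N, X n = z} := by
    intro N
    have : {X : ℕ → Site d | ∃ n ≤ N, X n = z} = ⋃ n, ⋃ (_ : n ≤ N), (fun X => X n) ⁻¹' {z} := by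
      ext; simp
    rw [this]
    exact MeasurableSet.iUnion fun n => MeasurableSet.iUnion fun _ =>
      measurable_pi_apply n (measurableSet_singleton z)
  have hmono : Monotone fun N => {X : ℕ → Site d | ∃ n ≤ N, X n = z} :=
    fun M N hMN X hX => let ⟨n, hn, hX'⟩ := hX; ⟨n, hn.trans hMN, hX'⟩
  rw [hU, hmono.measure_iUnion]
  refine iSup_le fun N => ?_
  induction N generalizing x with
  | zero =>
    by_cases hx : x = z
    · exact prob_le_one.trans (hx ▸ hz)
    · refine le_of_eq_of_le (measure_mono_null (t := {X | ¬X 0 = x}) ?_ (ae_law_zero ω x)) bot_le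
      rintro X ⟨n, hn, hX⟩ hX0
      obtain rfl : n = 0 := by omega
      exact hx (hX0.symm.trans hX)
  | succ N ih =>
    by_cases hx : x = z
    · exact prob_le_one.trans (hx ▸ hz)
    refine le_trans ?_ (h x)
    rw [law_step hω x (hm (N + 1))]
    refine Finset.sum_le_sum fun e _ => mul_le_mul_right ((measure_mono ?_).trans (ih _)) _
    rintro X ⟨n, hn, hX⟩
    cases n with
    | zero => exact absurd hX hx
    | succ n => exact ⟨n, by omega, hX⟩

/-! ## Locality -/

/-- The prefix law only reads the rows of the sites left. -/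
theorem law_pre_congr {ω' : Env d} (x : Site d) {n : ℕ} {γ : ℕ → Site d}
    (h : ∀ i < n, ω (γ i) = ω' (γ i)) : law ω x (pre n γ) = law ω' x (pre n γ) := by
  rw [law, law, Measure.map_apply (measurable_walk_right _ _) (measurableSet_pre _ _),
    Measure.map_apply (measurable_walk_right _ _) (measurableSet_pre _ _)]
  congr 1
  have key : ∀ ω₁ ω₂ : Env d, (∀ i < n, ω₁ (γ i) = ω₂ (γ i)) → ∀ U,
      walk ω₁ x U ∈ pre n γ → walk ω₂ x U ∈ pre n γ := by
    intro ω₁ ω₂ h12 U hU i hi
    induction i with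
    | zero => exact hU 0 hi
    | succ i ih =>
      have h1 := hU (i + 1) hi
      rw [walk, hU i (by omega)] at h1
      rw [walk, ih (by omega), ← h12 i (by omega), h1]
  ext U
  exact ⟨key ω ω' h U, key ω' ω (fun i hi => (h i hi).symm) U⟩

/-- The law of avoiding `S` only reads the rows outside `S`. -/
theorem law_avoid_congr {ω' : Env d} (x : Site d) {S : Set (Site d)} {A : Set (ℕ → Site d)}
    (hA : MeasurableSet A) (h : ∀ y ∉ S, ω y = ω' y) :
    law ω x ({X | ∀ n, X n ∉ S} ∩ A) = law ω' x ({X | ∀ n, X n ∉ S} ∩ A) := by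
  have hm : MeasurableSet ({X : ℕ → Site d | ∀ n, X n ∉ S} ∩ A) := by
    have : {X : ℕ → Site d | ∀ n, X n ∉ S} = ⋂ n, (fun X => X n) ⁻¹' Sᶜ := by ext; simp
    rw [this]
    exact (MeasurableSet.iInter fun n => measurable_pi_apply n MeasurableSet.of_discrete).inter hA
  rw [law, law, Measure.map_apply (measurable_walk_right _ _) hm,
    Measure.map_apply (measurable_walk_right _ _) hm]
  congr 1
  have key : ∀ ω₁ ω₂ : Env d, (∀ y ∉ S, ω₁ y = ω₂ y) → ∀ U,
      (∀ n, walk ω₁ x U n ∉ S) → walk ω₁ x U = walk ω₂ x U := by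
    intro ω₁ ω₂ h12 U hU
    funext i
    induction i with
    | zero => rfl
    | succ i ih => rw [walk, walk, ← ih, h12 _ (hU i)]
  ext U
  constructor
  · rintro ⟨h1, h2⟩
    show walk ω' x U ∈ {X | ∀ n, X n ∉ S} ∩ A
    rw [← key ω ω' h U h1]
    exact ⟨h1, h2⟩
  · rintro ⟨h1, h2⟩
    show walk ω x U ∈ {X | ∀ n, X n ∉ S} ∩ A
    rw [← key ω' ω (fun y hy => (h y hy).symm) U h1]
    exact ⟨h1, h2⟩

/-! ## Independence -/

omit [Nonempty (Fin d)] in
/-- Functions of disjoint sets of rows are independent. -/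
theorem lintegral_mul_of_local (μ : Measure (Step d → ℝ)) [IsProbabilityMeasure μ]
    (S : Finset (Site d)) {f g : Env d → ℝ≥0∞} (hf : Measurable f) (hg : Measurable g)
    (hfS : ∀ ω ω', (∀ y ∈ S, ω y = ω' y) → f ω = f ω')
    (hgS : ∀ ω ω', (∀ y ∉ S, ω y = ω' y) → g ω = g ω') :
    ∫⁻ ω, f ω * g ω ∂envLaw μ = (∫⁻ ω, f ω ∂envLaw μ) * ∫⁻ ω, g ω ∂envLaw μ := by
  classical
  set T : Env d × Env d → Env d := fun q y => if y ∈ S then q.1 y else q.2 y with hT
  have hTm : Measurable T := measurable_pi_lambda _ fun y => by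
    by_cases hy : y ∈ S
    · simp only [hT, if_pos hy]; exact (measurable_pi_apply y).comp measurable_fst
    · simp only [hT, if_neg hy]; exact (measurable_pi_apply y).comp measurable_snd
  have hmap : ((envLaw μ).prod (envLaw μ)).map T = envLaw μ := by
    refine Measure.eq_infinitePi _ fun s t ht => ?_
    have he : T ⁻¹' Set.pi (↑s) t =
        Set.pi (↑(s.filter (· ∈ S))) t ×ˢ Set.pi (↑(s.filter (· ∉ S))) t := by
      ext q
      simp only [Set.mem_preimage, Set.mem_pi, Finset.coe_filter, Set.mem_prod, Set.mem_setOf_eq,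
        Finset.mem_coe, hT]
      constructor
      · exact fun h => ⟨fun y hy => by simpa [hy.2] using h y hy.1,
          fun y hy => by simpa [hy.2] using h y hy.1⟩
      · intro h y hy
        by_cases hyS : y ∈ S
        · simpa [hyS] using h.1 y ⟨hy, hyS⟩
        · simpa [hyS] using h.2 y ⟨hy, hyS⟩
    rw [Measure.map_apply hTm (MeasurableSet.pi s.countable_toSet fun y _ => ht y), he,
      Measure.prod_prod, envLaw, Measure.infinitePi_pi _ fun y _ => ht y,
      Measure.infinitePi_pi _ fun y _ => ht y, Finset.prod_filter_mul_prod_filter_not]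
  conv_lhs => rw [← hmap]
  rw [lintegral_map (hf.fun_mul hg) hTm,
    ← lintegral_prod_mul hf.aemeasurable hg.aemeasurable]
  refine lintegral_congr fun q => ?_
  rw [hfS (T q) q.1 fun y hy => if_pos hy, hgS (T q) q.2 fun y hy => if_neg hy]

end Vale.Agent.P147.Balanced
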