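import Vale.Agent.P147.Balanced.Potential
import Vale.Agent.P147.Balanced.Quenched

/-!
# The annealed walk: fresh sites, decoupling from the past, visits to the past
-/

namespace Vale.Agent.P147.Balanced

open MeasureTheory Set Finset Filter
open scoped ENNReal

variable {d dm : ℕ}

lemma stepVec_eq (e : Step d) : stepVec e = vec e := rfl

/-- The projected step variance of a site, capped at one. -/
noncomputable def cm (π : Fin dm → Fin d → ℝ) (ω : Env d) (x : Site d) : ℝ≥0∞ :=
  min 1 (ENNReal.ofReal (mass π (ω x)))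

/-- The accumulated projected variance. -/
noncomputable def clock (π : Fin dm → Fin d → ℝ) (n : ℕ) (ω : Env d) (X : ℕ → Site d) : ℝ≥0∞ :=
  ∑ m ∈ range n, cm π ω (X m)

/-- The weight of time `n`. -/
noncomputable def wt (π : Fin dm → Fin d → ℝ) (K n : ℕ) (ω : Env d) (X : ℕ → Site d) : ℝ≥0∞ :=
  if clock π n ω X < K then cm π ω (X n) else 0

open Classical in
/-- One at the first visit of a site. -/
noncomputable def fresh (i : ℕ) (X : ℕ → Site d) : ℝ≥0∞ :=
  if ∀ m < i, X m ≠ X i then 1 else 0

/-- First visits before the clock reaches `K`. -/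
noncomputable def live (π : Fin dm → Fin d → ℝ) (K i : ℕ) (ω : Env d) (X : ℕ → Site d) : ℝ≥0∞ :=
  if clock π i ω X < K then fresh i X else 0

lemma fresh_congr {i : ℕ} {X Y : ℕ → Site d} (h : ∀ m ≤ i, X m = Y m) :
    fresh i X = fresh i Y := by
  have : (∀ m < i, X m ≠ X i) ↔ ∀ m < i, Y m ≠ Y i :=
    forall₂_congr fun m hm => by rw [h m hm.le, h i le_rfl]
  simp only [fresh, this]

lemma clock_congr (π : Fin dm → Fin d → ℝ) {n : ℕ} {ω ω' : Env d} {X Y : ℕ → Site d}
    (h : ∀ m < n, X m = Y m ∧ ω (X m) = ω' (X m)) : clock π n ω X = clock π n ω' Y :=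
  Finset.sum_congr rfl fun m hm => by
    obtain ⟨h1, h2⟩ := h m (mem_range.1 hm)
    simp only [cm, h2, ← h1]

lemma clock_mono (π : Fin dm → Fin d → ℝ) {i n : ℕ} (h : i ≤ n) (ω : Env d) (X : ℕ → Site d) :
    clock π i ω X ≤ clock π n ω X :=
  Finset.sum_le_sum_of_subset (Finset.range_subset_range.2 h)

lemma sum_wt_le (π : Fin dm → Fin d → ℝ) (K : ℕ) (ω : Env d) (X : ℕ → Site d) (n : ℕ) :
    ∑ m ∈ range n, wt π K m ω X ≤ clock π n ω X ∧ ∑ m ∈ range n, wt π K m ω X ≤ K + 1 := by
  induction n with
  | zero => simp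
  | succ n ih =>
    rw [Finset.sum_range_succ, clock, Finset.sum_range_succ]
    refine ⟨add_le_add ih.1 ?_, ?_⟩
    · rw [wt]; split <;> simp
    · rw [wt]
      split
      · rename_i hlt
        exact add_le_add (ih.1.trans hlt.le) (min_le_left _ _)
      · simpa using ih.2

lemma tsum_wt_le (π : Fin dm → Fin d → ℝ) (K : ℕ) (ω : Env d) (X : ℕ → Site d) :
    ∑' n, wt π K n ω X ≤ K + 1 := by
  rw [ENNReal.tsum_eq_iSup_nat]
  exact iSup_le fun n => (sum_wt_le π K ω X n).2

lemma sum_image_fresh (γ : ℕ → Site d) (φ : Site d → ℝ≥0∞) (n : ℕ) :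
    ∑ z ∈ (range n).image γ, φ z = ∑ i ∈ range n, fresh i γ * φ (γ i) := by
  induction n with
  | zero => simp
  | succ n ih =>
    rw [Finset.sum_range_succ, ← ih, range_add_one, image_insert]
    by_cases h : γ n ∈ (range n).image γ
    · have : ¬∀ m < n, γ m ≠ γ n := fun hh => by
        obtain ⟨m, hm, he⟩ := mem_image.1 h
        exact hh m (mem_range.1 hm) he
      rw [Finset.insert_eq_of_mem h, fresh, if_neg this, zero_mul, add_zero]
    · have : ∀ m < n, γ m ≠ γ n := fun m hm he => h (mem_image.2 ⟨m, mem_range.2 hm, he⟩)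
      rw [Finset.sum_insert h, fresh, if_pos this, one_mul, add_comm]

lemma lintegral_row (μ : Measure (Step d → ℝ)) [IsProbabilityMeasure μ]
    {φ : (Step d → ℝ) → ℝ≥0∞} (hφ : Measurable φ) (y : Site d) :
    ∫⁻ ω, φ (ω y) ∂envLaw μ = ∫⁻ r, φ r ∂μ := by
  conv_rhs => rw [← Measure.infinitePi_map_eval (fun _ : Site d => μ) y]
  rw [lintegral_map hφ (measurable_pi_apply y)]
  rfl

lemma measurable_rowAt (m : ℕ) :
    Measurable fun q : Env d × (ℕ → Site d) => q.1 (q.2 m) := by
  have h : Measurable fun r : Env d × Site d => r.1 r.2 :=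
    measurable_from_prod_countable_left fun y => measurable_pi_apply y
  exact h.comp (measurable_fst.prodMk ((measurable_pi_apply m).comp measurable_snd))

lemma measurable_cm (π : Fin dm → Fin d → ℝ) (m : ℕ) :
    Measurable fun q : Env d × (ℕ → Site d) => cm π q.1 (q.2 m) := by
  have : Measurable fun p : Step d → ℝ => mass π p := by
    unfold mass
    fun_prop
  exact measurable_const.min (ENNReal.measurable_ofReal.comp (this.comp (measurable_rowAt m)))

lemma measurable_clock (π : Fin dm → Fin d → ℝ) (n : ℕ) :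
    Measurable fun q : Env d × (ℕ → Site d) => clock π n q.1 q.2 :=
  Finset.measurable_sum _ fun m _ => measurable_cm π m

lemma measurable_wt (π : Fin dm → Fin d → ℝ) (K n : ℕ) :
    Measurable fun q : Env d × (ℕ → Site d) => wt π K n q.1 q.2 :=
  Measurable.ite (measurableSet_lt (measurable_clock π n) measurable_const) (measurable_cm π n)
    measurable_const

lemma measurable_fresh (i : ℕ) : Measurable (fresh (d := d) i) := by
  classical
  refine Measurable.ite ?_ measurable_const measurable_const
  have : {X : ℕ → Site d | ∀ m < i, X m ≠ X i} = ⋂ m, ⋂ (_ : m < i), {X | X m = X i}ᶜ := by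
    ext; simp
  rw [this]
  exact MeasurableSet.iInter fun m => MeasurableSet.iInter fun _ =>
    (measurableSet_eq_fun (measurable_pi_apply m) (measurable_pi_apply i)).compl

lemma measurable_live (π : Fin dm → Fin d → ℝ) (K i : ℕ) :
    Measurable fun q : Env d × (ℕ → Site d) => live π K i q.1 q.2 :=
  Measurable.ite (measurableSet_lt (measurable_clock π i) measurable_const)
    ((measurable_fresh i).comp measurable_snd) measurable_const

variable [Nonempty (Fin d)]

lemma measurable_lawAt {A : Set (ℕ → Site d)} (hA : MeasurableSet A) (n : ℕ) (u : Site d) :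
    Measurable fun q : Env d × (ℕ → Site d) => law q.1 (q.2 n + u) A := by
  have h : Measurable fun r : Env d × Site d => law r.1 r.2 A :=
    measurable_from_prod_countable_left fun y => measurable_law_apply y hA
  exact h.comp (measurable_fst.prodMk
    ((measurable_of_countable fun z : Site d => z + u).comp
      ((measurable_pi_apply n).comp measurable_snd)))

/-- The annealed law of environment and path from the origin. -/
noncomputable def annealed (μ : Measure (Step d → ℝ)) : Measure (Env d × (ℕ → Site d)) :=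
  ((envLaw μ).prod coins).map fun q => (q.1, walk q.1 0 q.2)

variable (μ : Measure (Step d → ℝ)) [IsProbabilityMeasure μ]

lemma measurable_envWalk : Measurable fun q : Env d × (ℕ → ℝ) => (q.1, walk q.1 0 q.2) :=
  measurable_fst.prodMk (measurable_walk 0)

instance : IsProbabilityMeasure (annealed μ) :=
  Measure.isProbabilityMeasure_map measurable_envWalk.aemeasurable

lemma lintegral_annealed {F : Env d × (ℕ → Site d) → ℝ≥0∞} (hF : Measurable F) :
    ∫⁻ q, F q ∂annealed μ = ∫⁻ ω, ∫⁻ X, F (ω, X) ∂law ω 0 ∂envLaw μ := by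
  have hm : Measurable fun q : Env d × (ℕ → ℝ) => F (q.1, walk q.1 0 q.2) :=
    hF.comp measurable_envWalk
  rw [annealed, lintegral_map hF measurable_envWalk, lintegral_prod _ hm.aemeasurable]
  refine lintegral_congr fun ω => ?_
  have hm : Measurable fun X => F (ω, X) := hF.comp measurable_prodMk_left
  rw [law, lintegral_map hm (measurable_walk_right ω 0)]

lemma lintegral_annealed_prefix {F : Env d × (ℕ → Site d) → ℝ≥0∞} (hF : Measurable F) {n : ℕ}
    (hp : ∀ ω, Prefix n fun X => F (ω, X)) :
    ∫⁻ q, F q ∂annealed μ = ∑' a : Fin (n + 1) → Site d,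
      ∫⁻ ω, F (ω, ext a) * law ω 0 (pre n (ext a)) ∂envLaw μ := by
  rw [lintegral_annealed μ hF, lintegral_congr fun ω => lintegral_prefix _ (hp ω)]
  refine lintegral_tsum fun a => Measurable.aemeasurable ?_
  exact (hF.comp measurable_prodMk_right).mul (measurable_law_apply 0 (measurableSet_pre _ _))

/-- At a first visit the row is fresh. -/
theorem lintegral_live_mul (π : Fin dm → Fin d → ℝ) (K i : ℕ) {φ : (Step d → ℝ) → ℝ≥0∞}
    (hφ : Measurable φ) :
    ∫⁻ q, live π K i q.1 q.2 * φ (q.1 (q.2 i)) ∂annealed μ =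
      (∫⁻ r, φ r ∂μ) * ∫⁻ q, live π K i q.1 q.2 ∂annealed μ := by
  classical
  have hp : ∀ ω, Prefix i fun X => live π K i ω X := fun ω X Y h => by
    simp only [live, clock_congr π (fun m hm => ⟨h m (le_of_lt hm), rfl⟩), fresh_congr h]
  have hm : Measurable fun q : Env d × (ℕ → Site d) => live π K i q.1 q.2 * φ (q.1 (q.2 i)) :=
    (measurable_live π K i).fun_mul (hφ.comp (measurable_rowAt i))
  rw [lintegral_annealed_prefix μ hm (n := i) fun ω X Y h => by simp only [hp ω X Y h, h i le_rfl],
    lintegral_annealed_prefix μ (measurable_live π K i) hp, ← ENNReal.tsum_mul_left]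
  refine tsum_congr fun a => ?_
  set γ := ext a
  by_cases hnew : ∀ m < i, γ m ≠ γ i
  · have hf : Measurable fun ω => live π K i ω γ * law ω 0 (pre i γ) :=
      ((measurable_live π K i).comp measurable_prodMk_right).mul
        (measurable_law_apply 0 (measurableSet_pre _ _))
    rw [mul_comm (∫⁻ r, φ r ∂μ), ← lintegral_row μ hφ (γ i), ← lintegral_mul_of_local μ
      ((range i).image γ) (g := fun ω => φ (ω (γ i))) hf (hφ.comp (measurable_pi_apply _))]
    · exact lintegral_congr fun ω => by ring
    · intro ω ω' h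
      have h' : ∀ m < i, ω (γ m) = ω' (γ m) := fun m hm =>
        h _ (mem_image_of_mem _ (mem_range.2 hm))
      simp only [live, clock_congr π (fun m hm => ⟨rfl, h' m hm⟩), law_pre_congr 0 h']
    · intro ω ω' h
      refine congrArg φ (h _ fun hm => ?_)
      obtain ⟨m, hm, he⟩ := mem_image.1 hm
      exact hnew m (mem_range.1 hm) he
  · have : ∀ ω, live π K i ω γ = 0 := fun ω => by
      rw [live, fresh, if_neg hnew, ite_self]
    simp [this]

/-- A quantity of the past of time `n`. -/
structure Past (n : ℕ) (F : Env d × (ℕ → Site d) → ℝ≥0∞) : Prop where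
  meas : Measurable F
  path : ∀ ω, Prefix n fun X => F (ω, X)
  env : ∀ ω ω' X, (∀ i ≤ n, ω (X i) = ω' (X i)) → F (ω, X) = F (ω', X)

/-- A row away from the past is fresh. -/
theorem decouple_row {n : ℕ} {F : Env d × (ℕ → Site d) → ℝ≥0∞} (hF : Past n F)
    {g : (Step d → ℝ) → ℝ≥0∞} (hg : Measurable g) (u : Site d) :
    ∫⁻ q, F q * g (q.1 (q.2 n + u)) ∂annealed μ ≤
      (∫⁻ r, g r ∂μ) * ∫⁻ q, F q ∂annealed μ +
      ∫⁻ q, F q * ∑ i ∈ range (n + 1), fresh i q.2 * g (q.1 (q.2 i)) *
        (if q.2 n + u = q.2 i then 1 else 0) ∂annealed μ := by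
  classical
  have hrow : Measurable fun q : Env d × (ℕ → Site d) => q.1 (q.2 n + u) := by
    have h : Measurable fun r : Env d × Site d => r.1 r.2 :=
      measurable_from_prod_countable_left fun y => measurable_pi_apply y
    exact h.comp (measurable_fst.prodMk
      ((measurable_of_countable fun z : Site d => z + u).comp
        ((measurable_pi_apply n).comp measurable_snd)))
  have hS : Measurable fun q : Env d × (ℕ → Site d) => ∑ i ∈ range (n + 1), fresh i q.2 *
      g (q.1 (q.2 i)) * (if q.2 n + u = q.2 i then 1 else 0) := by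
    refine Finset.measurable_sum _ fun i _ =>
      (((measurable_fresh i).comp measurable_snd).mul (hg.comp (measurable_rowAt i))).mul ?_
    exact Measurable.ite (measurableSet_eq_fun
      ((measurable_of_countable fun z : Site d => z + u).comp
        ((measurable_pi_apply n).comp measurable_snd))
      ((measurable_pi_apply i).comp measurable_snd)) measurable_const measurable_const
  have hm1 : Measurable fun q : Env d × (ℕ → Site d) => F q * g (q.1 (q.2 n + u)) :=
    hF.meas.fun_mul (hg.comp hrow)
  have hm2 := hF.meas.fun_mul hS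
  rw [lintegral_annealed_prefix μ hm1 (n := n) fun ω X Y h => by
      simp only [hF.path ω X Y h, h n le_rfl],
    lintegral_annealed_prefix μ hF.meas hF.path,
    lintegral_annealed_prefix μ hm2 (n := n) fun ω X Y h => by
      have : ∀ i ∈ range (n + 1), fresh i X * g (ω (X i)) * (if X n + u = X i then 1 else 0) =
          fresh i Y * g (ω (Y i)) * (if Y n + u = Y i then 1 else 0) := fun i hi => by
        have hi' : i ≤ n := Nat.le_of_lt_succ (mem_range.1 hi)
        rw [fresh_congr fun m hm => h m (hm.trans hi'), h i hi', h n le_rfl]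
      simp only [hF.path ω X Y h, Finset.sum_congr rfl this],
    ← ENNReal.tsum_mul_left, ← ENNReal.tsum_add]
  refine ENNReal.tsum_le_tsum fun a => ?_
  set γ := ext a
  set f : Env d → ℝ≥0∞ := fun ω => F (ω, γ) * law ω 0 (pre n γ)
  have hf : Measurable f :=
    (hF.meas.comp measurable_prodMk_right).mul (measurable_law_apply 0 (measurableSet_pre _ _))
  have hfS : ∀ ω ω', (∀ y ∈ (range (n + 1)).image γ, ω y = ω' y) → f ω = f ω' := fun ω ω' h => by
    have h' : ∀ m ≤ n, ω (γ m) = ω' (γ m) := fun m hm =>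
      h _ (mem_image_of_mem _ (mem_range.2 (Nat.lt_succ_of_le hm)))
    simp only [f, hF.env ω ω' γ h', law_pre_congr 0 fun m hm => h' m (le_of_lt hm)]
  by_cases hy : γ n + u ∈ (range (n + 1)).image γ
  · refine le_add_left (lintegral_mono fun ω => ?_)
    simp only [mul_right_comm _ _ (law ω 0 (pre n γ))]
    refine mul_le_mul_right (le_of_eq ?_) _
    simp only [mul_assoc]
    rw [← sum_image_fresh γ (fun z => g (ω z) * (if γ n + u = z then 1 else 0)) (n + 1)]
    simp only [mul_ite, mul_one, mul_zero]
    rw [Finset.sum_ite_eq, if_pos hy]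
  · refine le_add_right (le_of_eq ?_)
    rw [mul_comm (∫⁻ r, g r ∂μ), ← lintegral_row μ hg (γ n + u), ← lintegral_mul_of_local μ _
      (g := fun ω => g (ω (γ n + u))) hf (hg.comp (measurable_pi_apply _)) hfS
      fun ω ω' h => congrArg g (h _ hy)]
    exact lintegral_congr fun ω => by ring

/-- A fresh walk started away from the past avoids it unless it hits it. -/
theorem decouple_escape {n : ℕ} {F : Env d × (ℕ → Site d) → ℝ≥0∞} (hF : Past n F)
    {A : Set (ℕ → Site d)} (hA : MeasurableSet A) {q₀ : ℝ≥0∞}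
    (hq : ∀ y, ∫⁻ ω, law ω y A ∂envLaw μ = q₀) {Φ : Site d → ℝ≥0∞}
    (hΦ : ∀ᵐ ω ∂envLaw μ, ∀ y z, law ω y {X | ∃ m, X m = z} ≤ Φ (y - z)) (v : Site d) :
    q₀ * ∫⁻ q, F q ∂annealed μ ≤ ∫⁻ q, F q * law q.1 (q.2 n + v) A ∂annealed μ +
      ∫⁻ q, F q * ∑ i ∈ range (n + 1), fresh i q.2 * Φ (q.2 n + v - q.2 i) ∂annealed μ := by
  classical
  have hS : Measurable fun q : Env d × (ℕ → Site d) =>
      ∑ i ∈ range (n + 1), fresh i q.2 * Φ (q.2 n + v - q.2 i) := by
    refine Finset.measurable_sum _ fun i _ => ((measurable_fresh i).comp measurable_snd).mul ?_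
    have h : Measurable fun q : Env d × (ℕ → Site d) => (q.2 n, q.2 i) :=
      ((measurable_pi_apply n).comp measurable_snd).prodMk
        ((measurable_pi_apply i).comp measurable_snd)
    exact (measurable_of_countable fun z : Site d × Site d => Φ (z.1 + v - z.2)).comp h
  have hm1 := hF.meas.fun_mul (measurable_lawAt hA n v)
  have hm2 := hF.meas.fun_mul hS
  rw [lintegral_annealed_prefix μ hF.meas hF.path,
    lintegral_annealed_prefix μ hm1 (n := n) fun ω X Y h => by
      simp only [hF.path ω X Y h, h n le_rfl],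
    lintegral_annealed_prefix μ hm2 (n := n) fun ω X Y h => by
      have : ∀ i ∈ range (n + 1), fresh i X * Φ (X n + v - X i) =
          fresh i Y * Φ (Y n + v - Y i) := fun i hi => by
        have hi' : i ≤ n := Nat.le_of_lt_succ (mem_range.1 hi)
        rw [fresh_congr fun m hm => h m (hm.trans hi'), h i hi', h n le_rfl]
      simp only [hF.path ω X Y h, Finset.sum_congr rfl this],
    ← ENNReal.tsum_mul_left, ← ENNReal.tsum_add]
  refine ENNReal.tsum_le_tsum fun a => ?_
  set γ := ext a
  set y := γ n + v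
  set S := (range (n + 1)).image γ
  set f : Env d → ℝ≥0∞ := fun ω => F (ω, γ) * law ω 0 (pre n γ)
  set hit : ℝ≥0∞ := ∑ i ∈ range (n + 1), fresh i γ * Φ (y - γ i)
  set g : Env d → ℝ≥0∞ := fun ω => law ω y ({X | ∀ m, X m ∉ (S : Set (Site d))} ∩ A)
  have hgm : Measurable g := by
    refine measurable_law_apply y (MeasurableSet.inter ?_ hA)
    have : {X : ℕ → Site d | ∀ m, X m ∉ (S : Set (Site d))} =
        ⋂ m, (fun X => X m) ⁻¹' (S : Set (Site d))ᶜ := by ext; simp
    rw [this]
    exact MeasurableSet.iInter fun m => measurable_pi_apply m MeasurableSet.of_discrete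
  have hf : Measurable f :=
    (hF.meas.comp measurable_prodMk_right).mul (measurable_law_apply 0 (measurableSet_pre _ _))
  have hfS : ∀ ω ω', (∀ y ∈ S, ω y = ω' y) → f ω = f ω' := fun ω ω' h => by
    have h' : ∀ m ≤ n, ω (γ m) = ω' (γ m) := fun m hm =>
      h _ (mem_image_of_mem _ (mem_range.2 (Nat.lt_succ_of_le hm)))
    simp only [f, hF.env ω ω' γ h', law_pre_congr 0 fun m hm => h' m (le_of_lt hm)]
  have hgS : ∀ ω ω', (∀ y ∉ S, ω y = ω' y) → g ω = g ω' := fun ω ω' h =>
    law_avoid_congr y hA fun z hz => h z (by simpa using hz)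
  have key : q₀ ≤ (∫⁻ ω, g ω ∂envLaw μ) + hit := by
    rw [← hq y]
    refine le_trans (lintegral_mono_ae (g := fun ω => g ω + hit) ?_) ?_
    · filter_upwards [hΦ] with ω hω
      have hsub : A ⊆ ({X | ∀ m, X m ∉ (S : Set (Site d))} ∩ A) ∪
          ⋃ z ∈ S, {X | ∃ m, X m = z} := by
        intro X hX
        by_cases h : ∀ m, X m ∉ (S : Set (Site d))
        · exact Or.inl ⟨h, hX⟩
        · obtain ⟨m, hm⟩ := not_forall_not.1 h
          exact Or.inr (Set.mem_biUnion hm ⟨m, rfl⟩)
      refine (measure_mono hsub).trans ((measure_union_le _ _).trans (add_le_add le_rfl ?_))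
      refine (measure_biUnion_finset_le _ _).trans ((Finset.sum_le_sum fun z _ => hω y z).trans ?_)
      exact le_of_eq (sum_image_fresh γ (fun z => Φ (y - z)) (n + 1))
    · rw [lintegral_add_left hgm, lintegral_const, measure_univ, mul_one]
  calc q₀ * ∫⁻ ω, f ω ∂envLaw μ
      ≤ ((∫⁻ ω, g ω ∂envLaw μ) + hit) * ∫⁻ ω, f ω ∂envLaw μ := mul_le_mul_left key _
    _ = (∫⁻ ω, f ω * g ω ∂envLaw μ) + ∫⁻ ω, f ω * hit ∂envLaw μ := by
        rw [lintegral_mul_of_local μ S hf hgm hfS hgS, lintegral_mul_const _ hf]
        ring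
    _ ≤ _ := add_le_add
        (lintegral_mono fun ω => by
          simp only [f, g]
          rw [mul_right_comm]
          exact mul_le_mul_left (mul_le_mul_right (measure_mono Set.inter_subset_right) _) _)
        (le_of_eq (lintegral_congr fun ω => by simp only [f]; rw [mul_right_comm]))

/-- The time spent near the translated past is small. -/
theorem visits_le (π : Fin dm → Fin d → ℝ) (K : ℕ) {g : (Step d → ℝ) → ℝ≥0∞} (hg : Measurable g)
    {Φ Ψ : Site d → ℝ≥0∞}
    (hpot : ∀ᵐ ω ∂envLaw μ, Elliptic ω ∧ ∀ x z : Site d,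
      cm π ω x * Φ (x - z) + ∑ e, ENNReal.ofReal (ω x e) * Ψ (x + vec e - z) ≤ Ψ (x - z))
    (u : Site d) :
    ∑' n, ∫⁻ q, wt π K n q.1 q.2 * ∑ i ∈ range (n + 1),
        fresh i q.2 * g (q.1 (q.2 i)) * Φ (q.2 n + u - q.2 i) ∂annealed μ ≤
      (∫⁻ r, g r ∂μ) * (∑' i, ∫⁻ q, live π K i q.1 q.2 ∂annealed μ) * Ψ u := by
  classical
  have hpair : ∀ n i : ℕ, Measurable fun q : Env d × (ℕ → Site d) => (q.2 n, q.2 i) :=
    fun n i => ((measurable_pi_apply n).comp measurable_snd).prodMk
      ((measurable_pi_apply i).comp measurable_snd)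
  have hΦm : ∀ n i : ℕ, Measurable fun q : Env d × (ℕ → Site d) => Φ (q.2 n + u - q.2 i) :=
    fun n i => (measurable_of_countable fun z : Site d × Site d => Φ (z.1 + u - z.2)).comp
      (hpair n i)
  set G : ℕ → Env d × (ℕ → Site d) → ℝ≥0∞ := fun i q =>
    ∑' m, cm π q.1 (q.2 (i + m)) * Φ (q.2 (i + m) + u - q.2 i)
  set L : ℕ → Env d × (ℕ → Site d) → ℝ≥0∞ := fun i q => live π K i q.1 q.2 * g (q.1 (q.2 i))
  have hG : ∀ i, Measurable (G i) := fun i =>
    Measurable.tsum fun m => (measurable_cm π (i + m)).fun_mul (hΦm (i + m) i)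
  have hL : ∀ i, Measurable (L i) := fun i =>
    (measurable_live π K i).fun_mul (hg.comp (measurable_rowAt i))
  calc ∑' n, ∫⁻ q, wt π K n q.1 q.2 * ∑ i ∈ range (n + 1),
        fresh i q.2 * g (q.1 (q.2 i)) * Φ (q.2 n + u - q.2 i) ∂annealed μ
      = ∫⁻ q, ∑' n, wt π K n q.1 q.2 * ∑ i ∈ range (n + 1),
          fresh i q.2 * g (q.1 (q.2 i)) * Φ (q.2 n + u - q.2 i) ∂annealed μ :=
        (lintegral_tsum fun n => ((measurable_wt π K n).mul (Finset.measurable_sum _ fun i _ =>
          (((measurable_fresh i).comp measurable_snd).mul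
            (hg.comp (measurable_rowAt i))).mul (hΦm n i))).aemeasurable).symm
    _ ≤ ∫⁻ q, ∑' i, L i q * G i q ∂annealed μ := by
        refine lintegral_mono fun q => ?_
        have hterm : ∀ n i, i ≤ n → wt π K n q.1 q.2 *
            (fresh i q.2 * g (q.1 (q.2 i)) * Φ (q.2 n + u - q.2 i)) ≤
            L i q * (cm π q.1 (q.2 n) * Φ (q.2 n + u - q.2 i)) := by
          intro n i hin
          simp only [L, live, wt]
          by_cases hC : clock π n q.1 q.2 < K
          · rw [if_pos hC, if_pos ((clock_mono π hin q.1 q.2).trans_lt hC)]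
            exact le_of_eq (by ring)
          · rw [if_neg hC, zero_mul]
            exact bot_le
        calc ∑' n, wt π K n q.1 q.2 * ∑ i ∈ range (n + 1),
              fresh i q.2 * g (q.1 (q.2 i)) * Φ (q.2 n + u - q.2 i)
            ≤ ∑' n, ∑' i, if i ≤ n then
                L i q * (cm π q.1 (q.2 n) * Φ (q.2 n + u - q.2 i)) else 0 := by
              refine ENNReal.tsum_le_tsum fun n => ?_
              rw [Finset.mul_sum]
              refine le_trans (Finset.sum_le_sum fun i hi => ?_) (ENNReal.sum_le_tsum (range (n + 1)))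
              rw [if_pos (Nat.le_of_lt_succ (mem_range.1 hi))]
              exact hterm n i (Nat.le_of_lt_succ (mem_range.1 hi))
          _ = _ := by
              rw [ENNReal.tsum_comm]
              refine tsum_congr fun i => ?_
              simp only [G, ← ENNReal.tsum_mul_left]
              rw [← (add_right_injective i).tsum_eq (f := fun n => if i ≤ n then
                L i q * (cm π q.1 (q.2 n) * Φ (q.2 n + u - q.2 i)) else 0)]
              · exact tsum_congr fun m => if_pos (Nat.le_add_right i m)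
              · intro n hn
                simp only [Function.mem_support, ne_eq, ite_eq_right_iff, Classical.not_imp] at hn
                exact ⟨n - i, by simp only; omega⟩
    _ = ∑' i, ∫⁻ q, L i q * G i q ∂annealed μ :=
        lintegral_tsum fun i => ((hL i).mul (hG i)).aemeasurable
    _ ≤ ∑' i, (∫⁻ r, g r ∂μ) * (∫⁻ q, live π K i q.1 q.2 ∂annealed μ) * Ψ u := by
        refine ENNReal.tsum_le_tsum fun i => ?_
        rw [← lintegral_live_mul μ π K i hg, ← lintegral_mul_const _ (hL i),
          lintegral_annealed μ ((hL i).fun_mul (hG i)), lintegral_annealed μ ((hL i).mul_const _)]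
        refine lintegral_mono_ae ?_
        filter_upwards [hpot] with ω hω
        have hp : Prefix i fun X => L i (ω, X) := fun X Y h => by
          simp only [L, live, clock_congr π (fun m hm => ⟨h m (le_of_lt hm), rfl⟩), fresh_congr h,
            h i le_rfl]
        set G' : Site d → (ℕ → Site d) → ℝ≥0∞ := fun x Y => ∑' m, cm π ω (Y m) * Φ (Y m + u - x)
        have hG' : ∀ x, Measurable (G' x) := fun x => Measurable.tsum fun m =>
          (measurable_of_countable fun z => cm π ω z * Φ (z + u - x)).comp (measurable_pi_apply m)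
        refine (lintegral_markov hω.1 hp hG').trans_le (lintegral_mono fun X => ?_)
        refine mul_le_mul_right ?_ _
        have hb := lintegral_tsum_le hω.1 (W := fun z => cm π ω z * Φ (z + u - X i))
          (V := fun z => Ψ (z + u - X i)) (fun z => ?_) (X i)
        · rwa [add_sub_cancel_left] at hb
        · have h2 := hω.2 z (X i - u)
          simp only [show z - (X i - u) = z + u - X i by abel,
            show ∀ e, z + vec e - (X i - u) = z + vec e + u - X i from fun e => by abel] at h2
          exact h2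
    _ = _ := by rw [ENNReal.tsum_mul_right, ENNReal.tsum_mul_left]

end Vale.Agent.P147.Balanced
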