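import Vale.Agent.P147.Balanced.Annealed

/-!
# The zero-one law for local drifts confined to a subspace
-/

namespace Vale.Agent.P147.Balanced

open MeasureTheory Set Finset Filter Topology
open scoped ENNReal symmDiff

variable {d dm : ℕ} [Nonempty (Fin d)]

/-- The potentials, normalised. -/
theorem exists_potentials {π : Fin dm → Fin d → ℝ} {θ : ℝ} (hθ : θ < 1 / 4) :
    ∃ Φ Ψ : Site d → ℝ≥0∞, Φ 0 = 1 ∧ Ψ 0 ≠ ⊤ ∧ (∀ x, Ψ x ≤ Ψ 0) ∧
      (∀ e : Step d, 0 < lat π (vec e) →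
        Tendsto (fun N : ℕ => Ψ (N • vec e)) atTop (𝓝 0)) ∧
      ∀ ω : Env d, (∀ x, GoodRow π θ (ω x)) →
        (∀ x z : Site d, cm π ω x * Φ (x - z) +
          ∑ e, ENNReal.ofReal (ω x e) * Ψ (x + vec e - z) ≤ Ψ (x - z)) ∧
        ∀ y z : Site d, law ω y {X | ∃ m, X m = z} ≤ Φ (y - z) := by
  obtain ⟨t, R, κ, ht, hR, hκ, hpot⟩ := exists_params π hθ
  have hR0 : 0 < R := by linarith
  have hbase : ∀ (s : ℝ) x, 0 < pot π R s x := fun s x =>
    Real.rpow_pos_of_pos (by linarith [lat_nonneg π x]) _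
  set c₀ := pot π R (1 + t) (0 : Site d)
  have hc₀ : 0 < c₀ := hbase _ _
  have hlat0 : lat π (0 : Site d) = 0 := by simp [lat, proj]
  refine ⟨fun x => ENNReal.ofReal (pot π R (1 + t) x / c₀),
    fun x => ENNReal.ofReal (pot π R t x / (κ * c₀)), ?_, ENNReal.ofReal_ne_top, fun x => ?_,
    fun e₀ he₀ => ?_, fun ω hω => ⟨fun x z => ?_, fun y z => ?_⟩⟩
  · show ENNReal.ofReal (c₀ / c₀) = 1
    rw [div_self hc₀.ne', ENNReal.ofReal_one]
  · refine ENNReal.ofReal_le_ofReal (div_le_div_of_nonneg_right ?_ (by positivity))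
    exact Real.rpow_le_rpow_of_nonpos (by linarith [hlat0])
      (by linarith [lat_nonneg π x, hlat0]) (by linarith)
  · have e : ∀ N : ℕ, lat π (N • vec e₀ : Site d) = (N : ℝ) ^ 2 * lat π (vec e₀) := fun N =>
      lat_nsmul π N (vec e₀)
    have h1 : Tendsto (fun N : ℕ => (R + (N : ℝ) ^ 2 * lat π (vec e₀)) ^ (-t) / (κ * c₀)) atTop
        (𝓝 (0 / (κ * c₀))) :=
      ((tendsto_rpow_neg_atTop ht).comp (tendsto_atTop_add_const_left atTop R
        (((tendsto_pow_atTop two_ne_zero).comp tendsto_natCast_atTop_atTop).atTop_mul_const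
          he₀))).div_const _
    rw [zero_div] at h1
    simpa only [pot, e, ENNReal.ofReal_zero] using ENNReal.tendsto_ofReal h1
  · have hm0 : 0 ≤ mass π (ω x) := mass_nonneg π fun e => ((hω x).pos e).le
    refine le_trans (add_le_add (mul_le_mul_left
      (show cm π ω x ≤ ENNReal.ofReal (mass π (ω x)) from min_le_right _ _) _) le_rfl) ?_
    have h := (hpot (ω x) (hω x) (x - z)).1
    simp only [stepVec_eq] at h
    simp only [show ∀ e, x + vec e - z = x - z + vec e from fun e => by abel,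
      ← ENNReal.ofReal_mul ((hω x).pos _).le]
    rw [← ENNReal.ofReal_mul hm0, ← ENNReal.ofReal_sum_of_nonneg, ← ENNReal.ofReal_add]
    · refine ENNReal.ofReal_le_ofReal ?_
      have hk : 0 < κ * c₀ := by positivity
      rw [le_div_iff₀ hk, add_mul, Finset.sum_mul]
      simp only [mul_assoc, div_mul_cancel₀ _ hk.ne']
      rw [show pot π R (1 + t) (x - z) / c₀ * (κ * c₀) = κ * pot π R (1 + t) (x - z) by
        field_simp]
      linarith [h]
    · exact mul_nonneg hm0 (div_nonneg (hbase _ _).le hc₀.le)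
    · exact sum_nonneg fun e _ =>
        mul_nonneg ((hω x).pos e).le (div_nonneg (hbase _ _).le (by positivity))
    · exact fun e _ => mul_nonneg ((hω x).pos e).le (div_nonneg (hbase _ _).le (by positivity))
  · have hell : Elliptic ω := fun x => ⟨(hω x).pos, (hω x).sum⟩
    refine law_visit_le hell (V := fun y => ENNReal.ofReal (pot π R (1 + t) (y - z) / c₀))
      (by simp [c₀, div_self hc₀.ne']) (fun x => ?_) y
    have h := (hpot (ω x) (hω x) (x - z)).2
    simp only [stepVec_eq] at h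
    simp only [show ∀ e, x + vec e - z = x - z + vec e from fun e => by abel,
      ← ENNReal.ofReal_mul ((hω x).pos _).le]
    rw [← ENNReal.ofReal_sum_of_nonneg fun e _ =>
      mul_nonneg ((hω x).pos e).le (div_nonneg (hbase _ _).le hc₀.le)]
    refine ENNReal.ofReal_le_ofReal ?_
    simp only [mul_div_assoc', ← Finset.sum_div]
    exact div_le_div_of_nonneg_right h hc₀.le

/-- Moving along a segment of rows bounded below costs a bounded factor. -/
theorem law_shift_le {ω : Env d} (hω : Elliptic ω) {B : Set (ℕ → Site d)} (hB : MeasurableSet B)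
    (hcons : ∀ x, cons x ⁻¹' B = B) (e : Step d) {ε : ℝ} (hε : 0 < ε) (x : Site d) (N : ℕ) :
    law ω (x + N • vec e) B ≤ (ENNReal.ofReal ε)⁻¹ ^ N * law ω x B +
      ∑ t ∈ range N, if ω (x + t • vec e) e < ε then 1 else 0 := by
  classical
  by_cases hbad : ∃ t < N, ω (x + t • vec e) e < ε
  · obtain ⟨t, ht, htb⟩ := hbad
    refine le_add_left (prob_le_one.trans ?_)
    exact le_of_eq_of_le (by rw [if_pos htb])
      (Finset.single_le_sum (fun _ _ => bot_le) (Finset.mem_range.2 ht))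
  · push Not at hbad
    refine le_add_right ?_
    have hε0 : ENNReal.ofReal ε ≠ 0 := (ENNReal.ofReal_pos.2 hε).ne'
    have step : ∀ y, ε ≤ ω y e → law ω (y + vec e) B ≤ (ENNReal.ofReal ε)⁻¹ * law ω y B := by
      intro y hy
      have h : ENNReal.ofReal ε * law ω (y + vec e) B ≤ law ω y B := by
        rw [law_step hω y hB]
        simp only [hcons]
        exact (mul_le_mul_left (ENNReal.ofReal_le_ofReal hy) _).trans
          (Finset.single_le_sum (f := fun f => ENNReal.ofReal (ω y f) * law ω (y + vec f) B)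
            (fun _ _ => bot_le) (Finset.mem_univ e))
      calc law ω (y + vec e) B
          = (ENNReal.ofReal ε)⁻¹ * (ENNReal.ofReal ε * law ω (y + vec e) B) := by
            rw [← mul_assoc, ENNReal.inv_mul_cancel hε0 ENNReal.ofReal_ne_top, one_mul]
        _ ≤ _ := mul_le_mul_right h _
    induction N with
    | zero => simp
    | succ N ih =>
      rw [succ_nsmul, ← add_assoc, pow_succ', mul_assoc]
      exact (step _ (hbad N N.lt_succ_self)).trans
        (mul_le_mul_right (ih fun t ht => hbad t (ht.trans N.lt_succ_self)) _)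

variable {μ : Measure (Step d → ℝ)} [IsProbabilityMeasure μ] {π : Fin dm → Fin d → ℝ} {θ : ℝ}

theorem ae_goodRows (h : ∀ᵐ p ∂μ, GoodRow π θ p) :
    ∀ᵐ ω ∂envLaw μ, ∀ x, GoodRow π θ (ω x) := by
  refine ae_all_iff.2 fun x => ?_
  refine ae_of_ae_map (μ := envLaw μ) (f := fun ω => ω x) (p := fun p => GoodRow π θ p)
    (measurable_pi_apply x).aemeasurable ?_
  rw [envLaw, Measure.infinitePi_map_eval]
  exact h

theorem ae_annealed_of_env {P : Env d → Prop} (h : ∀ᵐ ω ∂envLaw μ, P ω) :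
    ∀ᵐ q ∂annealed μ, P q.1 := by
  refine ae_of_ae_map measurable_fst.aemeasurable ?_
  rw [annealed, Measure.map_map measurable_fst measurable_envWalk]
  change ∀ᵐ ω ∂((envLaw μ).prod coins).map Prod.fst, P ω
  rwa [Measure.map_fst_prod, measure_univ, one_smul]

/-- The mean capped variance of a row. -/
noncomputable def meanMass (π : Fin dm → Fin d → ℝ) (μ : Measure (Step d → ℝ)) : ℝ≥0∞ :=
  ∫⁻ r, min 1 (ENNReal.ofReal (mass π r)) ∂μ

omit [Nonempty (Fin d)] [IsProbabilityMeasure μ] in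
theorem measurable_minMass :
    Measurable fun r : Step d → ℝ => min 1 (ENNReal.ofReal (mass π r)) := by
  have : Measurable fun r : Step d → ℝ => mass π r := by
    unfold mass
    fun_prop
  exact measurable_const.min (ENNReal.measurable_ofReal.comp this)

omit [Nonempty (Fin d)] in
theorem meanMass_ne_zero (hJ : ∃ k i, π k i ≠ 0) (h : ∀ᵐ p ∂μ, GoodRow π θ p) : meanMass π μ ≠ 0 := by
  intro h0
  rw [meanMass, lintegral_eq_zero_iff measurable_minMass] at h0
  obtain ⟨p, hp, hp0⟩ := (h.and h0).exists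
  simp only [Pi.zero_apply] at hp0
  rcases min_choice 1 (ENNReal.ofReal (mass π p)) with hm | hm
  · exact one_ne_zero (hm.symm.trans hp0)
  · exact (ENNReal.ofReal_pos.2 (mass_pos hJ hp.pos)).ne' (hm.symm.trans hp0)

theorem live_le (hJ : ∃ k i, π k i ≠ 0) (h : ∀ᵐ p ∂μ, GoodRow π θ p) (K : ℕ) :
    ∑' i, ∫⁻ q, live π K i q.1 q.2 ∂annealed μ ≤ (meanMass π μ)⁻¹ * (K + 1) := by
  have hne : meanMass π μ ≠ ⊤ := ne_top_of_le_ne_top ENNReal.one_ne_top
    ((lintegral_mono fun r => min_le_left _ _).trans (by simp))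
  rw [mul_comm, ← div_eq_mul_inv,
    ENNReal.le_div_iff_mul_le (Or.inl (meanMass_ne_zero hJ h)) (Or.inl hne), mul_comm,
    ← ENNReal.tsum_mul_left]
  calc ∑' i, meanMass π μ * ∫⁻ q, live π K i q.1 q.2 ∂annealed μ
      = ∑' i, ∫⁻ q, live π K i q.1 q.2 * cm π q.1 (q.2 i) ∂annealed μ :=
        tsum_congr fun i => (lintegral_live_mul μ π K i measurable_minMass).symm
    _ ≤ ∑' i, ∫⁻ q, wt π K i q.1 q.2 ∂annealed μ := by
        refine ENNReal.tsum_le_tsum fun i => lintegral_mono fun q => ?_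
        simp only [live, wt]
        split
        · refine mul_le_of_le_one_left' ?_
          rw [fresh]
          split <;> simp
        · simp
    _ = ∫⁻ q, ∑' i, wt π K i q.1 q.2 ∂annealed μ :=
        (lintegral_tsum fun i => (measurable_wt π K i).aemeasurable).symm
    _ ≤ ∫⁻ _, (K + 1 : ℝ≥0∞) ∂annealed μ := lintegral_mono fun q => tsum_wt_le π K q.1 q.2
    _ = K + 1 := by simp

theorem ae_clock_diverges (hJ : ∃ k i, π k i ≠ 0) (h : ∀ᵐ p ∂μ, GoodRow π θ p) :
    ∀ᵐ q ∂annealed μ, ∑' n, cm π q.1 (q.2 n) = ⊤ := by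
  classical
  have hfin : ∀ᵐ q ∂annealed μ, ∀ K : ℕ, ∑' i, live π K i q.1 q.2 ≠ ⊤ := by
    refine ae_all_iff.2 fun K => ?_
    have hm : Measurable fun q : Env d × (ℕ → Site d) => ∑' i, live π K i q.1 q.2 :=
      Measurable.tsum fun i => measurable_live π K i
    refine (ae_lt_top hm ?_).mono fun q hq => hq.ne
    rw [lintegral_tsum fun i => (measurable_live π K i).aemeasurable]
    exact ne_top_of_le_ne_top (ENNReal.mul_ne_top (ENNReal.inv_ne_top.2 (meanMass_ne_zero hJ h))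
      (ENNReal.add_ne_top.2 ⟨ENNReal.natCast_ne_top K, ENNReal.one_ne_top⟩)) (live_le hJ h K)
  filter_upwards [hfin, ae_annealed_of_env (ae_goodRows h)] with ⟨ω, X⟩ hfinq hgood
  by_contra hne
  obtain ⟨K, hK⟩ := ENNReal.exists_nat_gt hne
  have hlive : ∀ i, live π K i ω X = fresh i X := fun i => by
    rw [live, if_pos (show clock π i ω X < K from
      lt_of_le_of_lt (ENNReal.sum_le_tsum (f := fun n => cm π ω (X n)) (range i)) hK)]
  have hf : {i | 1 ≤ fresh i X}.Finite :=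
    ENNReal.finite_const_le_of_tsum_ne_top (by simpa only [hlive] using hfinq K) one_ne_zero
  have hrange : (Set.range X).Finite := by
    refine (hf.image X).subset ?_
    rintro _ ⟨n, rfl⟩
    have hex : ∃ i, X i = X n := ⟨n, rfl⟩
    refine ⟨Nat.find hex, ?_, Nat.find_spec hex⟩
    simp only [Set.mem_setOf_eq, fresh]
    rw [if_pos]
    exact fun m hm he => Nat.find_min hex hm (he.trans (Nat.find_spec hex))
  set F := hrange.toFinset
  have hFne : F.Nonempty := ⟨X 0, by simp [F]⟩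
  set c := F.inf' hFne fun x => cm π ω x
  have hc : c ≠ 0 := by
    obtain ⟨x, -, hx⟩ := F.exists_mem_eq_inf' hFne fun x => cm π ω x
    simp only [c, hx, cm]
    exact (lt_min zero_lt_one (ENNReal.ofReal_pos.2 (mass_pos hJ (hgood x).pos))).ne'
  refine hne (top_le_iff.1 ((ENNReal.tsum_const_eq_top_of_ne_zero hc).ge.trans
    (ENNReal.tsum_le_tsum fun n => Finset.inf'_le _ ?_)))
  simp [F]

omit [Nonempty (Fin d)] in
theorem le_tsum_wt {K : ℕ} {ω : Env d} {X : ℕ → Site d} (h : ∑' n, cm π ω (X n) = ⊤) :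
    (K : ℝ≥0∞) ≤ ∑' n, wt π K n ω X := by
  classical
  by_cases hall : ∀ n, clock π n ω X < K
  · simp only [wt, if_pos (hall _), h, le_top]
  · push Not at hall
    have hlt : ∀ m < Nat.find hall, clock π m ω X < K := fun m hm =>
      not_le.1 (Nat.find_min hall hm)
    refine (Nat.find_spec hall).trans (le_trans (le_of_eq ?_) (ENNReal.sum_le_tsum (range (Nat.find hall))))
    rw [clock]
    exact Finset.sum_congr rfl fun m hm => by rw [wt, if_pos (hlt m (Finset.mem_range.1 hm))]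

theorem le_of_mul_nat_le {a Z c : ℝ≥0∞} (hZ : Z ≠ ⊤) (hc : c ≠ ⊤)
    (h : ∀ K : ℕ, a * K ≤ (K + 1) * Z + c) : a ≤ Z := by
  have hlim : Tendsto (fun K : ℕ => Z + (Z + c) * (K : ℝ≥0∞)⁻¹) atTop (𝓝 (Z + (Z + c) * 0)) :=
    tendsto_const_nhds.add (ENNReal.Tendsto.const_mul ENNReal.tendsto_inv_nat_nhds_zero
      (Or.inr (ENNReal.add_ne_top.2 ⟨hZ, hc⟩)))
  rw [mul_zero, add_zero] at hlim
  refine ge_of_tendsto hlim (eventually_atTop.2 ⟨1, fun K hK => ?_⟩)
  have hK0 : (K : ℝ≥0∞) ≠ 0 := by simp; omega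
  calc a = a * K * (K : ℝ≥0∞)⁻¹ := by
        rw [mul_assoc, ENNReal.mul_inv_cancel hK0 (ENNReal.natCast_ne_top K), mul_one]
    _ ≤ ((K + 1) * Z + c) * (K : ℝ≥0∞)⁻¹ := mul_le_mul_left (h K) _
    _ = (K : ℝ≥0∞) * (K : ℝ≥0∞)⁻¹ * Z + (Z + c) * (K : ℝ≥0∞)⁻¹ := by ring
    _ = _ := by rw [ENNReal.mul_inv_cancel hK0 (ENNReal.natCast_ne_top K), one_mul]

/-- The weight of the time `k + n₀` on the event `S`. -/
noncomputable def wS (π : Fin dm → Fin d → ℝ) (S : Set (ℕ → Site d)) (K n₀ k : ℕ)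
    (q : Env d × (ℕ → Site d)) : ℝ≥0∞ :=
  S.indicator 1 q.2 * wt π K (k + n₀) q.1 q.2

omit [Nonempty (Fin d)] in
theorem measurable_wS {S : Set (ℕ → Site d)} (hS : MeasurableSet S) (K n₀ k : ℕ) :
    Measurable (wS π S K n₀ k) :=
  ((measurable_const.indicator hS).comp measurable_snd).fun_mul (measurable_wt π K _)

omit [Nonempty (Fin d)] in
theorem past_wS {n₀ : ℕ} {S : Set (ℕ → Site d)} (hS : MeasurableSet S)
    (hSp : ∀ X Y : ℕ → Site d, (∀ i ≤ n₀, X i = Y i) → (X ∈ S ↔ Y ∈ S)) (K k : ℕ) :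
    Past (k + n₀) (wS π S K n₀ k) := by
  refine ⟨measurable_wS hS K n₀ k, fun ω X Y hXY => ?_, fun ω ω' X hωω => ?_⟩
  · have hmem := hSp X Y fun i hi => hXY i (hi.trans (Nat.le_add_left _ _))
    have hi : S.indicator (1 : (ℕ → Site d) → ℝ≥0∞) X = S.indicator 1 Y := by
      by_cases hX : X ∈ S
      · rw [Set.indicator_of_mem hX, Set.indicator_of_mem (hmem.1 hX), Pi.one_apply, Pi.one_apply]
      · rw [Set.indicator_of_notMem hX, Set.indicator_of_notMem (mt hmem.2 hX)]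
    simp only [wS, hi, wt, hXY _ le_rfl,
      clock_congr π (fun m hm => ⟨hXY m (le_of_lt hm), rfl⟩)]
  · simp only [wS, wt, cm, hωω _ le_rfl,
      clock_congr π (fun m hm => ⟨rfl, hωω m (le_of_lt hm)⟩)]

omit [Nonempty (Fin d)] in
theorem wS_le (S : Set (ℕ → Site d)) (K n₀ k : ℕ) (q : Env d × (ℕ → Site d)) :
    wS π S K n₀ k q ≤ wt π K (k + n₀) q.1 q.2 :=
  mul_le_of_le_one_left' (by by_cases h : q.2 ∈ S <;> simp [h])

theorem sum_wS_le (S : Set (ℕ → Site d)) (K n₀ : ℕ) :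
    ∑' k, ∫⁻ q, wS π S K n₀ k q ∂annealed μ ≤ K + 1 := by
  have h1 : ∑' k, ∫⁻ q, wS π S K n₀ k q ∂annealed μ ≤
      ∑' k, ∫⁻ q, wt π K (k + n₀) q.1 q.2 ∂annealed μ :=
    ENNReal.tsum_le_tsum fun k => lintegral_mono (wS_le S K n₀ k)
  have h2 := ENNReal.tsum_comp_le_tsum_of_injective (add_left_injective n₀)
    fun n => ∫⁻ q, wt π K n q.1 q.2 ∂annealed μ
  have h3 : ∫⁻ q, ∑' n, wt π K n q.1 q.2 ∂annealed μ = ∑' n, ∫⁻ q, wt π K n q.1 q.2 ∂annealed μ :=
    lintegral_tsum fun n => (measurable_wt π K n).aemeasurable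
  have h4 : ∫⁻ q, ∑' n, wt π K n q.1 q.2 ∂annealed μ ≤ ∫⁻ _, (K + 1 : ℝ≥0∞) ∂annealed μ :=
    lintegral_mono fun q => tsum_wt_le π K q.1 q.2
  rw [lintegral_const, measure_univ, mul_one, h3] at h4
  exact (h1.trans h2).trans h4

theorem lower_wS (hJ : ∃ k i, π k i ≠ 0) (h : ∀ᵐ p ∂μ, GoodRow π θ p) {S : Set (ℕ → Site d)}
    (hS : MeasurableSet S) (K n₀ : ℕ) :
    (annealed μ).map Prod.snd S * K ≤ (∑' k, ∫⁻ q, wS π S K n₀ k q ∂annealed μ) + n₀ := by
  rw [← lintegral_tsum fun k => (measurable_wS hS K n₀ k).aemeasurable,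
    Measure.map_apply measurable_snd hS, mul_comm, ← setLIntegral_const,
    ← lintegral_indicator (measurable_snd hS)]
  refine le_trans (lintegral_mono_ae (g := fun q => (∑' k, wS π S K n₀ k q) + n₀) ?_) ?_
  · filter_upwards [ae_clock_diverges hJ h] with q hdiv
    by_cases hq : q.2 ∈ S
    · rw [Set.indicator_of_mem (show q ∈ Prod.snd ⁻¹' S from hq)]
      simp only [wS, Set.indicator_of_mem hq, Pi.one_apply, one_mul]
      refine (le_tsum_wt hdiv).trans ?_
      rw [← ENNReal.summable.sum_add_tsum_nat_add' (f := fun n => wt π K n q.1 q.2) (k := n₀),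
        add_comm]
      refine add_le_add le_rfl ((Finset.sum_le_card_nsmul _ _ 1 fun m _ => ?_).trans (by simp))
      rw [wt]
      split
      · exact min_le_left _ _
      · exact zero_le_one
    · rw [Set.indicator_of_notMem (show q ∉ Prod.snd ⁻¹' S from hq)]
      exact bot_le
  · rw [lintegral_add_right _ measurable_const]
    simp

theorem visits_wS (hJ : ∃ k i, π k i ≠ 0) (h : ∀ᵐ p ∂μ, GoodRow π θ p) {Φ Ψ : Site d → ℝ≥0∞}
    (hpot : ∀ᵐ ω ∂envLaw μ, Elliptic ω ∧ ∀ x z : Site d,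
      cm π ω x * Φ (x - z) + ∑ e, ENNReal.ofReal (ω x e) * Ψ (x + vec e - z) ≤ Ψ (x - z))
    {g : (Step d → ℝ) → ℝ≥0∞} (hg : Measurable g) (S : Set (ℕ → Site d)) (K n₀ : ℕ) (u : Site d) :
    ∑' k, ∫⁻ q, wS π S K n₀ k q * ∑ i ∈ range (k + n₀ + 1),
        fresh i q.2 * g (q.1 (q.2 i)) * Φ (q.2 (k + n₀) + u - q.2 i) ∂annealed μ ≤
      (∫⁻ r, g r ∂μ) * ((meanMass π μ)⁻¹ * (K + 1)) * Ψ u := by
  refine (ENNReal.tsum_le_tsum fun k => lintegral_mono fun q =>
    mul_le_mul_left (wS_le S K n₀ k q) _).trans ?_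
  refine (ENNReal.tsum_comp_le_tsum_of_injective (add_left_injective n₀) fun n =>
    ∫⁻ q, wt π K n q.1 q.2 * ∑ i ∈ range (n + 1),
      fresh i q.2 * g (q.1 (q.2 i)) * Φ (q.2 n + u - q.2 i) ∂annealed μ).trans ?_
  exact (visits_le μ π K hg hpot u).trans
    (mul_le_mul_left (mul_le_mul_right (live_le hJ h K) _) _)

theorem markov_wS (hell : ∀ᵐ ω ∂envLaw μ, Elliptic ω) {B : Set (ℕ → Site d)}
    (hB : MeasurableSet B) (hshift : ∀ n, shiftP n ⁻¹' B = B) {n₀ : ℕ} {S : Set (ℕ → Site d)}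
    (hS : MeasurableSet S)
    (hSp : ∀ X Y : ℕ → Site d, (∀ i ≤ n₀, X i = Y i) → (X ∈ S ↔ Y ∈ S)) (K : ℕ) :
    ∑' k, ∫⁻ q, wS π S K n₀ k q * law q.1 (q.2 (k + n₀)) B ∂annealed μ ≤
      (K + 1) * (annealed μ).map Prod.snd (S ∩ B) := by
  have hm2 : ∀ k, Measurable fun q : Env d × (ℕ → Site d) =>
      wS π S K n₀ k q * B.indicator 1 q.2 := fun k =>
    (measurable_wS hS K n₀ k).fun_mul ((measurable_const.indicator hB).comp measurable_snd)
  have e1 : ∀ k, ∫⁻ q, wS π S K n₀ k q * law q.1 (q.2 (k + n₀)) B ∂annealed μ =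
      ∫⁻ q, wS π S K n₀ k q * B.indicator 1 q.2 ∂annealed μ := by
    intro k
    have hm : Measurable fun q : Env d × (ℕ → Site d) =>
        wS π S K n₀ k q * law q.1 (q.2 (k + n₀)) B := by
      have := measurable_lawAt hB (k + n₀) 0
      simp only [add_zero] at this
      exact (measurable_wS hS K n₀ k).fun_mul this
    rw [lintegral_annealed μ hm, lintegral_annealed μ (hm2 k)]
    refine lintegral_congr_ae (hell.mono fun ω hω => ?_)
    have hinv : ∀ X, B.indicator (1 : (ℕ → Site d) → ℝ≥0∞) (shiftP (k + n₀) X) =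
        B.indicator 1 X := fun X => by
      have hiff : shiftP (k + n₀) X ∈ B ↔ X ∈ B := by rw [← Set.mem_preimage, hshift]
      by_cases hX : X ∈ B
      · rw [Set.indicator_of_mem hX, Set.indicator_of_mem (hiff.2 hX), Pi.one_apply, Pi.one_apply]
      · rw [Set.indicator_of_notMem hX, Set.indicator_of_notMem (mt hiff.1 hX)]
    have := lintegral_markov hω (x := 0) ((past_wS (π := π) hS hSp K k).path ω)
      (G := fun _ Y => B.indicator (1 : (ℕ → Site d) → ℝ≥0∞) Y)
      fun _ => measurable_const.indicator hB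
    simp only [hinv] at this
    exact (this.trans (lintegral_congr fun X => by rw [lintegral_indicator_one hB])).symm
  simp only [e1]
  rw [← lintegral_tsum fun k => (hm2 k).aemeasurable,
    Measure.map_apply measurable_snd (hS.inter hB), ← setLIntegral_const,
    ← lintegral_indicator (measurable_snd (hS.inter hB))]
  refine lintegral_mono fun q => ?_
  by_cases hq : q.2 ∈ S ∩ B
  · rw [Set.indicator_of_mem (show q ∈ Prod.snd ⁻¹' (S ∩ B) from hq)]
    simp only [wS, Set.indicator_of_mem hq.1, Set.indicator_of_mem hq.2, Pi.one_apply,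
      one_mul, mul_one]
    exact (ENNReal.tsum_comp_le_tsum_of_injective (add_left_injective n₀) fun n =>
      wt π K n q.1 q.2).trans (tsum_wt_le π K q.1 q.2)
  · rw [Set.indicator_of_notMem (show q ∉ Prod.snd ⁻¹' (S ∩ B) from hq)]
    refine le_of_eq (ENNReal.tsum_eq_zero.2 fun k => ?_)
    simp only [wS]
    rcases not_and_or.1 hq with h1 | h1 <;> simp [h1]

theorem move_wS (hell : ∀ᵐ ω ∂envLaw μ, Elliptic ω) {B : Set (ℕ → Site d)} (hB : MeasurableSet B)
    (hcons : ∀ x, cons x ⁻¹' B = B) {S : Set (ℕ → Site d)} (hS : MeasurableSet S) (K n₀ : ℕ)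
    (e : Step d) {ε : ℝ} (hε : 0 < ε) (N k : ℕ) :
    ∫⁻ q, wS π S K n₀ k q * law q.1 (q.2 (k + n₀) + N • vec e) B ∂annealed μ ≤
      (ENNReal.ofReal ε)⁻¹ ^ N *
          (∫⁻ q, wS π S K n₀ k q * law q.1 (q.2 (k + n₀)) B ∂annealed μ) +
        ∑ t ∈ range N, ∫⁻ q, wS π S K n₀ k q *
          (if q.1 (q.2 (k + n₀) + t • vec e) e < ε then 1 else 0) ∂annealed μ := by
  have hm : ∀ t : ℕ, Measurable fun q : Env d × (ℕ → Site d) =>
      wS π S K n₀ k q * (if q.1 (q.2 (k + n₀) + t • vec e) e < ε then 1 else 0 : ℝ≥0∞) := fun t => by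
    have h1 : Measurable fun r : Env d × Site d => r.1 r.2 e :=
      (measurable_pi_apply e).comp
        (measurable_from_prod_countable_left fun y => measurable_pi_apply y :
          Measurable fun r : Env d × Site d => r.1 r.2)
    have h3 : Measurable fun q : Env d × (ℕ → Site d) => (q.1, q.2 (k + n₀) + t • vec e) :=
      measurable_fst.prodMk ((measurable_of_countable fun z : Site d => z + t • vec e).comp
        ((measurable_pi_apply (k + n₀)).comp measurable_snd))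
    exact (measurable_wS hS K n₀ k).fun_mul
      (Measurable.ite (measurableSet_lt (h1.comp h3) measurable_const) measurable_const
        measurable_const)
  have hm0 : Measurable fun q : Env d × (ℕ → Site d) =>
      wS π S K n₀ k q * law q.1 (q.2 (k + n₀)) B := by
    have := measurable_lawAt hB (k + n₀) 0
    simp only [add_zero] at this
    exact (measurable_wS hS K n₀ k).fun_mul this
  rw [← lintegral_const_mul _ hm0, ← lintegral_finsetSum _ fun t _ => hm t,
    ← lintegral_add_right _ (Finset.measurable_sum _ fun t _ => hm t)]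
  refine lintegral_mono_ae ((ae_annealed_of_env hell).mono fun q hq => ?_)
  refine (mul_le_mul_right (law_shift_le hq hB hcons e hε (q.2 (k + n₀)) N) _).trans (le_of_eq ?_)
  rw [mul_add, Finset.mul_sum, mul_left_comm]

theorem bad_wS (hJ : ∃ k i, π k i ≠ 0) (h : ∀ᵐ p ∂μ, GoodRow π θ p) {Φ Ψ : Site d → ℝ≥0∞}
    (hΦ0 : Φ 0 = 1) (hΨ : ∀ x, Ψ x ≤ Ψ 0)
    (hpot : ∀ᵐ ω ∂envLaw μ, Elliptic ω ∧ ∀ x z : Site d,
      cm π ω x * Φ (x - z) + ∑ e, ENNReal.ofReal (ω x e) * Ψ (x + vec e - z) ≤ Ψ (x - z))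
    {n₀ : ℕ} {S : Set (ℕ → Site d)} (hS : MeasurableSet S)
    (hSp : ∀ X Y : ℕ → Site d, (∀ i ≤ n₀, X i = Y i) → (X ∈ S ↔ Y ∈ S)) (K : ℕ)
    (e : Step d) (ε : ℝ) (u : Site d) :
    ∑' k, ∫⁻ q, wS π S K n₀ k q * (if q.1 (q.2 (k + n₀) + u) e < ε then 1 else 0) ∂annealed μ ≤
      (K + 1) * (μ {r | r e < ε} * (1 + (meanMass π μ)⁻¹ * Ψ 0)) := by
  classical
  set bad : (Step d → ℝ) → ℝ≥0∞ := fun r => if r e < ε then 1 else 0
  have hbadm : Measurable bad :=
    Measurable.ite (measurableSet_lt (measurable_pi_apply e) measurable_const) measurable_const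
      measurable_const
  have hbadint : ∫⁻ r, bad r ∂μ = μ {r | r e < ε} := by
    have : bad = {r | r e < ε}.indicator 1 := by
      funext r
      simp [bad, Set.indicator_apply]
    rw [this, lintegral_indicator_one (measurableSet_lt (measurable_pi_apply e) measurable_const)]
  refine (ENNReal.tsum_le_tsum fun k => decouple_row μ (past_wS hS hSp K k) hbadm u).trans ?_
  rw [ENNReal.tsum_add, ENNReal.tsum_mul_left, hbadint]
  refine le_trans (add_le_add (mul_le_mul_right (sum_wS_le S K n₀) _) ((ENNReal.tsum_le_tsum fun k =>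
    lintegral_mono fun q => mul_le_mul_right (Finset.sum_le_sum fun i _ =>
      mul_le_mul_right ?_ _) _).trans (visits_wS hJ h hpot hbadm S K n₀ u))) ?_
  · split
    · rename_i heq
      rw [heq, sub_self, hΦ0]
    · exact bot_le
  · rw [hbadint]
    refine (add_le_add le_rfl (mul_le_mul_right (hΨ _) _)).trans (le_of_eq ?_)
    ring

/-- The main estimate: the mass of an event determined by a prefix, times the mass of an invariant
event, is at most the cost of moving by `N` steps and of the visits to the past. -/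
theorem main_bound (hJ : ∃ k i, π k i ≠ 0) (h : ∀ᵐ p ∂μ, GoodRow π θ p)
    {B : Set (ℕ → Site d)} (hB : MeasurableSet B) (hcons : ∀ x, cons x ⁻¹' B = B)
    (hshift : ∀ n, shiftP n ⁻¹' B = B) {q₀ : ℝ≥0∞}
    (hq : ∀ y, ∫⁻ ω, law ω y B ∂envLaw μ = q₀) (e : Step d)
    {Φ Ψ : Site d → ℝ≥0∞} (hΦ0 : Φ 0 = 1) (hΨ : ∀ x, Ψ x ≤ Ψ 0) (hΨtop : Ψ 0 ≠ ⊤)
    (hpot : ∀ ω : Env d, (∀ x, GoodRow π θ (ω x)) →
        (∀ x z : Site d, cm π ω x * Φ (x - z) +
          ∑ e, ENNReal.ofReal (ω x e) * Ψ (x + vec e - z) ≤ Ψ (x - z)) ∧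
        ∀ y z : Site d, law ω y {X | ∃ m, X m = z} ≤ Φ (y - z))
    {n₀ : ℕ} {S : Set (ℕ → Site d)} (hS : MeasurableSet S)
    (hSp : ∀ X Y : ℕ → Site d, (∀ i ≤ n₀, X i = Y i) → (X ∈ S ↔ Y ∈ S))
    {ε : ℝ} (hε : 0 < ε) (N : ℕ) :
    q₀ * (annealed μ).map Prod.snd S ≤
      (ENNReal.ofReal ε)⁻¹ ^ N * (annealed μ).map Prod.snd (S ∩ B) +
        (N : ℝ≥0∞) * μ {r | r e < ε} * (1 + (meanMass π μ)⁻¹ * Ψ 0) +
        (meanMass π μ)⁻¹ * Ψ (N • vec e) := by
  classical
  set M := (ENNReal.ofReal ε)⁻¹ ^ N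
  set L := (meanMass π μ)⁻¹
  have hMtop : M ≠ ⊤ := ENNReal.pow_ne_top (ENNReal.inv_ne_top.2 (ENNReal.ofReal_pos.2 hε).ne')
  have hLtop : L ≠ ⊤ := ENNReal.inv_ne_top.2 (meanMass_ne_zero hJ h)
  have hgood := ae_goodRows h
  have hell : ∀ᵐ ω ∂envLaw μ, Elliptic ω := hgood.mono fun ω hω x => ⟨(hω x).pos, (hω x).sum⟩
  have hq1 : q₀ ≤ 1 := hq 0 ▸ (lintegral_mono fun ω => prob_le_one).trans (by simp)
  have hΦ : ∀ᵐ ω ∂envLaw μ, ∀ y z, law ω y {X | ∃ m, X m = z} ≤ Φ (y - z) :=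
    hgood.mono fun ω hω => (hpot ω hω).2
  have hpot' : ∀ᵐ ω ∂envLaw μ, Elliptic ω ∧ ∀ x z : Site d,
      cm π ω x * Φ (x - z) + ∑ f, ENNReal.ofReal (ω x f) * Ψ (x + vec f - z) ≤ Ψ (x - z) :=
    hgood.mono fun ω hω => ⟨fun x => ⟨(hω x).pos, (hω x).sum⟩, (hpot ω hω).1⟩
  refine le_of_mul_nat_le ?_ (ENNReal.natCast_ne_top n₀) fun K => ?_
  · exact ENNReal.add_ne_top.2 ⟨ENNReal.add_ne_top.2 ⟨ENNReal.mul_ne_top hMtop (measure_ne_top _ _),
      ENNReal.mul_ne_top (ENNReal.mul_ne_top (ENNReal.natCast_ne_top N) (measure_ne_top _ _))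
        (ENNReal.add_ne_top.2 ⟨ENNReal.one_ne_top, ENNReal.mul_ne_top hLtop hΨtop⟩)⟩,
      ENNReal.mul_ne_top hLtop (ne_top_of_le_ne_top hΨtop (hΨ _))⟩
  set W := ∑' k, ∫⁻ q, wS π S K n₀ k q ∂annealed μ
  have hhit : q₀ * W ≤
      (∑' k, ∫⁻ q, wS π S K n₀ k q * law q.1 (q.2 (k + n₀) + N • vec e) B ∂annealed μ) +
      (K + 1) * (L * Ψ (N • vec e)) := by
    rw [← ENNReal.tsum_mul_left]
    refine (ENNReal.tsum_le_tsum fun k =>
      decouple_escape μ (past_wS hS hSp K k) hB hq hΦ (N • vec e)).trans ?_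
    rw [ENNReal.tsum_add]
    refine add_le_add le_rfl ?_
    have := visits_wS hJ h hpot' (g := fun _ => 1) measurable_const S K n₀ (N • vec e)
    simp only [mul_one, lintegral_const, measure_univ, one_mul] at this
    exact this.trans (le_of_eq (by ring))
  have hmove : (∑' k, ∫⁻ q, wS π S K n₀ k q *
      law q.1 (q.2 (k + n₀) + N • vec e) B ∂annealed μ) ≤
      M * ((K + 1) * (annealed μ).map Prod.snd (S ∩ B)) +
        (N : ℝ≥0∞) * ((K + 1) * (μ {r | r e < ε} * (1 + L * Ψ 0))) := by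
    refine (ENNReal.tsum_le_tsum fun k => move_wS hell hB hcons hS K n₀ e hε N k).trans ?_
    rw [ENNReal.tsum_add, ENNReal.tsum_mul_left,
      Summable.tsum_finsetSum fun _ _ => ENNReal.summable]
    refine add_le_add (mul_le_mul_right (markov_wS hell hB hshift hS hSp K) M) ?_
    refine (Finset.sum_le_sum fun t _ =>
      bad_wS hJ h hΦ0 hΨ hpot' hS hSp K e ε (t • vec e)).trans (le_of_eq ?_)
    rw [Finset.sum_const, Finset.card_range, nsmul_eq_mul]
  calc q₀ * (annealed μ).map Prod.snd S * K ≤ q₀ * (W + n₀) := by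
        rw [mul_assoc]; exact mul_le_mul_right (lower_wS hJ h hS K n₀) q₀
    _ ≤ q₀ * W + n₀ := by
        rw [mul_add]
        exact add_le_add le_rfl (mul_le_of_le_one_left' hq1)
    _ ≤ _ := add_le_add ((hhit.trans (add_le_add hmove le_rfl)).trans (le_of_eq (by ring))) le_rfl

/-- Directional zero-one law when some projection of the walk is a martingale, well spread out. -/
theorem zero_one_projection (hJ : ∃ k i, π k i ≠ 0) (hθ : θ < 1 / 4) (h : ∀ᵐ p ∂μ, GoodRow π θ p)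
    (l : Fin d → ℝ) :
    ∃ c : ℝ≥0∞, (c = 0 ∨ c = 1) ∧
      ∀ᵐ ω ∂envLaw μ, Elliptic ω ∧ ∀ x, law ω x (escape l) = c := by
  classical
  obtain ⟨k₀, j, hkj⟩ := hJ
  have hJ : ∃ k i, π k i ≠ 0 := ⟨k₀, j, hkj⟩
  have hj : 0 < lat π (vec (j, true)) := lat_stepVec_pos hkj
  set A := escape (d := d) l
  have hA := measurableSet_escape (d := d) l
  have hcons : ∀ x, cons x ⁻¹' Aᶜ = Aᶜ := fun x => by
    rw [Set.preimage_compl, cons_preimage_escape]
  have hshift : ∀ n, shiftP n ⁻¹' Aᶜ = Aᶜ := fun n => by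
    rw [Set.preimage_compl]
    congr 1
    ext X
    simp only [Set.mem_preimage, A, escape, Set.mem_ofPred_eq, shiftP]
    have := tendsto_add_atTop_iff_nat (f := fun i => dot l (X i)) (l := atTop) n
    simpa only [add_comm n] using this
  have htrans : ∀ (B : Set (ℕ → Site d)), (B = A ∨ B = Aᶜ) → ∀ y,
      ∫⁻ ω, law ω y B ∂envLaw μ = ∫⁻ ω, law ω 0 B ∂envLaw μ := by
    intro B hB y
    have hBm : MeasurableSet B := by rcases hB with rfl | rfl <;> simp [A, hA]
    have hinv : (fun (X : ℕ → Site d) i => X i + y) ⁻¹' B = B := by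
      rcases hB with rfl | rfl
      · exact translate_preimage_escape l y
      · rw [Set.preimage_compl, translate_preimage_escape]
    calc ∫⁻ ω, law ω y B ∂envLaw μ = ∫⁻ ω, law (shiftEnv y ω) 0 B ∂envLaw μ := by
          refine lintegral_congr fun ω => ?_
          conv_lhs => rw [← zero_add y, law_translate ω y 0]
          rw [Measure.map_apply (by fun_prop) hBm, hinv]
          rfl
      _ = _ := (measurePreserving_shiftEnv μ y).lintegral_comp (measurable_law_apply 0 hBm)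
  set m := (annealed μ).map Prod.snd
  haveI : IsProbabilityMeasure m := Measure.isProbabilityMeasure_map measurable_snd.aemeasurable
  have hmB : ∀ B, MeasurableSet B → m B = ∫⁻ ω, law ω 0 B ∂envLaw μ := fun B hB => by
    have hm : Measurable fun q : Env d × (ℕ → Site d) =>
        B.indicator (1 : (ℕ → Site d) → ℝ≥0∞) q.2 :=
      (measurable_const.indicator hB).comp measurable_snd
    calc m B = ∫⁻ X, B.indicator (1 : (ℕ → Site d) → ℝ≥0∞) X ∂m := (lintegral_indicator_one hB).symm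
      _ = ∫⁻ q, B.indicator (1 : (ℕ → Site d) → ℝ≥0∞) q.2 ∂annealed μ :=
          lintegral_map (measurable_const.indicator hB) measurable_snd
      _ = ∫⁻ ω, ∫⁻ X, B.indicator (1 : (ℕ → Site d) → ℝ≥0∞) X ∂law ω 0 ∂envLaw μ :=
          lintegral_annealed μ hm
      _ = _ := lintegral_congr fun ω => lintegral_indicator_one hB
  obtain ⟨Φ, Ψ, hΦ0, hΨtop, hΨ, hΨlim, hpot⟩ := exists_potentials (d := d) (π := π) hθ
  set L := (meanMass π μ)⁻¹
  have hLtop : L ≠ ⊤ := ENNReal.inv_ne_top.2 (meanMass_ne_zero hJ h)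
  have key : ∀ (N : ℕ) (ε ε₁ : ℝ), 0 < ε → 0 < ε₁ →
      m Aᶜ * m A ≤ ((ENNReal.ofReal ε)⁻¹ ^ N + 1) * ENNReal.ofReal ε₁ +
        (N : ℝ≥0∞) * μ {r | r (j, true) < ε} * (1 + L * Ψ 0) + L * Ψ (N • vec (j, true)) := by
    intro N ε ε₁ hε hε₁
    obtain ⟨S, hS, hSA⟩ := (Measure.MeasureDense.of_generateFrom_isSetAlgebra_finite (μ := m)
      (isSetAlgebra_measurableCylinders (α := fun _ : ℕ => Site d))
      generateFrom_measurableCylinders.symm).approx A hA (measure_ne_top _ _) ε₁ hε₁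
    obtain ⟨I, T, hT, rfl⟩ := (mem_measurableCylinders _).1 hS
    have hSp : ∀ X Y : ℕ → Site d, (∀ i ≤ I.sup id, X i = Y i) →
        (X ∈ cylinder I T ↔ Y ∈ cylinder I T) := fun X Y hXY => by
      have : I.restrict X = I.restrict Y := funext fun i => hXY i (Finset.le_sup (f := id) i.2)
      simp only [mem_cylinder, this]
    have hb := main_bound hJ h hA.compl hcons hshift
      (fun y => (htrans _ (Or.inr rfl) y).trans (hmB _ hA.compl).symm) (j, true) hΦ0 hΨ hΨtop hpot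
      (hT.cylinder I) hSp hε N
    have h1 : m A ≤ m (cylinder I T) + ENNReal.ofReal ε₁ := by
      refine le_trans (measure_mono (fun X hX => ?_)) ((measure_union_le _ _).trans
        (add_le_add le_rfl hSA.le))
      by_cases hXS : X ∈ cylinder I T
      · exact Or.inl hXS
      · exact Or.inr (Or.inl ⟨hX, hXS⟩)
    have h2 : m (cylinder I T ∩ Aᶜ) ≤ ENNReal.ofReal ε₁ :=
      le_trans (measure_mono fun X hX => Or.inr ⟨hX.1, hX.2⟩) hSA.le
    calc m Aᶜ * m A ≤ m Aᶜ * m (cylinder I T) + ENNReal.ofReal ε₁ :=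
          (mul_le_mul_right h1 _).trans (by
            rw [mul_add]; exact add_le_add le_rfl (mul_le_of_le_one_left' prob_le_one))
      _ ≤ ((ENNReal.ofReal ε)⁻¹ ^ N * ENNReal.ofReal ε₁ +
            (N : ℝ≥0∞) * μ {r | r (j, true) < ε} * (1 + L * Ψ 0) + L * Ψ (N • vec (j, true))) +
            ENNReal.ofReal ε₁ :=
          add_le_add (hb.trans (add_le_add (add_le_add (mul_le_mul_right h2 _) le_rfl) le_rfl))
            le_rfl
      _ = _ := by ring
  have hseq : Tendsto (fun k : ℕ => 1 / ((k : ℝ) + 1)) atTop (𝓝 0) :=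
    tendsto_one_div_add_atTop_nhds_zero_nat
  have hseq0 : ∀ k : ℕ, 0 < 1 / ((k : ℝ) + 1) := fun k => by positivity
  have hprod : m Aᶜ * m A = 0 := by
    have step1 : ∀ (N : ℕ) (ε : ℝ), 0 < ε → m Aᶜ * m A ≤
        (N : ℝ≥0∞) * μ {r | r (j, true) < ε} * (1 + L * Ψ 0) + L * Ψ (N • vec (j, true)) := by
      intro N ε hε
      have hne : (ENNReal.ofReal ε)⁻¹ ^ N + 1 ≠ ⊤ := ENNReal.add_ne_top.2
        ⟨ENNReal.pow_ne_top (ENNReal.inv_ne_top.2 (ENNReal.ofReal_pos.2 hε).ne'), ENNReal.one_ne_top⟩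
      have hlim := ((ENNReal.Tendsto.const_mul (ENNReal.tendsto_ofReal hseq)
        (Or.inr hne)).add_const ((N : ℝ≥0∞) * μ {r | r (j, true) < ε} * (1 + L * Ψ 0))).add_const
        (L * Ψ (N • vec (j, true)))
      simp only [ENNReal.ofReal_zero, mul_zero, zero_add] at hlim
      exact ge_of_tendsto hlim (Eventually.of_forall fun k => key N ε _ hε (hseq0 k))
    have hδ : Tendsto (fun k : ℕ => μ {r | r (j, true) < 1 / ((k : ℝ) + 1)}) atTop (𝓝 0) := by
      have hnull : μ (⋂ k : ℕ, {r : Step d → ℝ | r (j, true) < 1 / ((k : ℝ) + 1)}) = 0 := by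
        refine measure_mono_null (t := {r | ¬GoodRow π θ r}) ?_ h
        intro r hr hp
        obtain ⟨k, hk⟩ := exists_nat_one_div_lt (GoodRow.pos hp (j, true))
        exact absurd (Set.mem_iInter.1 hr k) (not_lt.2 hk.le)
      rw [← hnull]
      refine tendsto_measure_iInter_atTop
        (fun k => (measurableSet_lt (measurable_pi_apply _) measurable_const).nullMeasurableSet)
        (fun a b hab r hr => show r (j, true) < _ from lt_of_lt_of_le hr ?_) ⟨0, measure_ne_top _ _⟩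
      exact div_le_div_of_nonneg_left zero_le_one (by positivity)
        (by exact_mod_cast Nat.add_le_add_right hab 1)
    have step2 : ∀ N : ℕ, m Aᶜ * m A ≤ L * Ψ (N • vec (j, true)) := by
      intro N
      have hlim := (ENNReal.Tendsto.mul_const
        (ENNReal.Tendsto.const_mul hδ (Or.inr (ENNReal.natCast_ne_top N)))
        (Or.inr (show (1 : ℝ≥0∞) + L * Ψ 0 ≠ ⊤ from ENNReal.add_ne_top.2
          ⟨ENNReal.one_ne_top, ENNReal.mul_ne_top hLtop hΨtop⟩))).add_const
        (L * Ψ (N • vec (j, true)))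
      simp only [mul_zero, zero_mul, zero_add] at hlim
      exact ge_of_tendsto hlim (Eventually.of_forall fun k => step1 N _ (hseq0 k))
    have hlim : Tendsto (fun N : ℕ => L * Ψ (N • vec (j, true))) atTop (𝓝 (L * 0)) :=
      ENNReal.Tendsto.const_mul (hΨlim (j, true) hj) (Or.inr hLtop)
    rw [mul_zero] at hlim
    exact le_antisymm (ge_of_tendsto hlim (Eventually.of_forall step2)) bot_le
  have hell : ∀ᵐ ω ∂envLaw μ, Elliptic ω :=
    (ae_goodRows h).mono fun ω hω x => ⟨(hω x).pos, (hω x).sum⟩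
  have hzero : ∀ B : Set (ℕ → Site d), (B = A ∨ B = Aᶜ) → m B = 0 →
      ∀ᵐ ω ∂envLaw μ, ∀ x, law ω x B = 0 := by
    intro B hB h0
    have hBm : MeasurableSet B := by rcases hB with rfl | rfl <;> simp [A, hA]
    refine ae_all_iff.2 fun x => (lintegral_eq_zero_iff (measurable_law_apply x hBm)).1 ?_
    rw [htrans B hB x, ← hmB B hBm, h0]
  rcases mul_eq_zero.1 hprod with h0 | h0
  · refine ⟨1, Or.inr rfl, ?_⟩
    filter_upwards [hell, hzero Aᶜ (Or.inr rfl) h0] with ω hω hx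
    exact ⟨hω, fun x => (prob_compl_eq_zero_iff hA).1 (hx x)⟩
  · refine ⟨0, Or.inl rfl, ?_⟩
    filter_upwards [hell, hzero A (Or.inl rfl) h0] with ω hω hx
    exact ⟨hω, hx⟩

end Vale.Agent.P147.Balanced
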