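import Mathlib

/-!
# Superharmonic potentials for a projection along which the walk is a martingale
-/

namespace Vale.Agent.P147.Balanced

open Finset

variable {d m : ℕ}

/-- The lattice vector of a step. -/
def stepVec (e : Fin d × Bool) : Fin d → ℤ := Pi.single e.1 (if e.2 then 1 else -1)

/-- The projection by the matrix `π`. -/
def proj (π : Fin m → Fin d → ℝ) (x : Fin d → ℤ) (k : Fin m) : ℝ := ∑ i, π k i * (x i : ℝ)

/-- The squared length of the projection. -/
def lat (π : Fin m → Fin d → ℝ) (x : Fin d → ℤ) : ℝ := ∑ k, proj π x k ^ 2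

/-- The mean squared projected step. -/
def mass (π : Fin m → Fin d → ℝ) (p : Fin d × Bool → ℝ) : ℝ := ∑ e, p e * lat π (stepVec e)

/-- A row with no projected drift and with projected covariance at most `θ` times its trace. -/
structure GoodRow (π : Fin m → Fin d → ℝ) (θ : ℝ) (p : Fin d × Bool → ℝ) : Prop where
  pos : ∀ e, 0 < p e
  sum : ∑ e, p e = 1
  centred : ∀ k, ∑ e, p e * proj π (stepVec e) k = 0
  share : ∀ z : Fin m → ℝ, ∑ e, p e * (∑ k, z k * proj π (stepVec e) k) ^ 2 ≤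
    θ * (∑ k, z k ^ 2) * mass π p

theorem lat_nonneg (π : Fin m → Fin d → ℝ) (x : Fin d → ℤ) : 0 ≤ lat π x :=
  sum_nonneg fun _ _ => sq_nonneg _

theorem mass_nonneg (π : Fin m → Fin d → ℝ) {p : Fin d × Bool → ℝ} (hp : ∀ e, 0 ≤ p e) :
    0 ≤ mass π p := sum_nonneg fun e _ => mul_nonneg (hp e) (lat_nonneg π _)

theorem lat_stepVec_pos {π : Fin m → Fin d → ℝ} {k : Fin m} {i : Fin d} (h : π k i ≠ 0) :
    0 < lat π (stepVec (i, true)) := by
  have e : proj π (stepVec (i, true)) k = π k i := by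
    rw [proj, sum_eq_single i]
    · simp [stepVec]
    · intro j _ hj
      simp [stepVec, Pi.single_eq_of_ne hj]
    · simp
  exact sum_pos' (fun _ _ => sq_nonneg _) ⟨k, mem_univ k, by rw [e]; positivity⟩

theorem mass_pos {π : Fin m → Fin d → ℝ} (h : ∃ k i, π k i ≠ 0) {p : Fin d × Bool → ℝ}
    (hp : ∀ e, 0 < p e) : 0 < mass π p := by
  obtain ⟨k, i, hki⟩ := h
  exact sum_pos' (fun e _ => mul_nonneg (hp e).le (lat_nonneg π _))
    ⟨(i, true), mem_univ _, mul_pos (hp _) (lat_stepVec_pos hki)⟩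

theorem lat_add (π : Fin m → Fin d → ℝ) (x v : Fin d → ℤ) :
    lat π (x + v) = lat π x + (2 * (∑ k, proj π x k * proj π v k) + lat π v) := by
  simp only [lat, mul_sum, ← sum_add_distrib]
  refine sum_congr rfl fun k _ => ?_
  have : proj π (x + v) k = proj π x k + proj π v k := by
    simp only [proj, ← sum_add_distrib, Pi.add_apply, Int.cast_add, mul_add]
  rw [this]
  ring

theorem lat_nsmul (π : Fin m → Fin d → ℝ) (N : ℕ) (v : Fin d → ℤ) :
    lat π (N • v) = (N : ℝ) ^ 2 * lat π v := by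
  simp only [lat, mul_sum]
  refine sum_congr rfl fun k _ => ?_
  have : proj π (N • v) k = (N : ℝ) * proj π v k := by
    simp only [proj, mul_sum, Pi.smul_apply, nsmul_eq_mul, Int.cast_mul, Int.cast_natCast]
    exact sum_congr rfl fun i _ => by ring
  rw [this]
  ring

/-! ## One dimensional bounds -/

theorem rpow_neg_le {t x η : ℝ} (ht0 : 0 ≤ t) (ht1 : t ≤ 1) (hη : η < 1) (hx : -η ≤ x) :
    (1 + x) ^ (-t) ≤ 1 - t * x + t / (1 - η) * x ^ 2 := by
  have h1 : 0 < 1 + x := by linarith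
  have h2 : (1 + x) ^ (-t) = (1 + ((1 + x)⁻¹ - 1)) ^ t := by
    rw [add_sub_cancel, Real.rpow_neg h1.le, Real.inv_rpow h1.le]
  rw [h2]
  refine (rpow_one_add_le_one_add_mul_self (by linarith [inv_pos.2 h1]) ht0 ht1).trans ?_
  have h3 : (1 + x)⁻¹ - 1 = -x + x ^ 2 / (1 + x) := by
    field_simp
    ring
  have h4 : x ^ 2 / (1 + x) ≤ x ^ 2 / (1 - η) :=
    div_le_div_of_nonneg_left (sq_nonneg x) (by linarith) (by linarith)
  have h5 := mul_le_mul_of_nonneg_left h4 ht0
  rw [h3, show t / (1 - η) * x ^ 2 = t * (x ^ 2 / (1 - η)) by ring]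
  linarith

theorem rpow_neg_one_le {t x η : ℝ} (ht0 : 0 ≤ t) (ht1 : t ≤ 1) (hη0 : 0 ≤ η) (hη : η < 1)
    (hx : -η ≤ x) :
    (1 + x) ^ (-(1 + t)) ≤ 1 - (1 + t) * x + (1 + 2 * t) / (1 - η) ^ 2 * x ^ 2 := by
  have h1 : 0 < 1 + x := by linarith
  have hη' : 0 < 1 - η := by linarith
  have h2 : (1 + x) ^ (-(1 + t)) = (1 + x)⁻¹ * (1 + x) ^ (-t) := by
    rw [neg_add, Real.rpow_add h1, Real.rpow_neg_one]
  have h3 : (1 + x) ^ (-t) ≤ 1 - t * x / (1 + x) := by
    rw [show (1 + x) ^ (-t) = (1 + ((1 + x)⁻¹ - 1)) ^ t by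
      rw [add_sub_cancel, Real.rpow_neg h1.le, Real.inv_rpow h1.le]]
    refine (rpow_one_add_le_one_add_mul_self (by linarith [inv_pos.2 h1]) ht0 ht1).trans (le_of_eq ?_)
    field_simp
    ring
  rw [h2]
  refine (mul_le_mul_of_nonneg_left h3 (inv_nonneg.2 h1.le)).trans ?_
  have e : (1 + x)⁻¹ * (1 - t * x / (1 + x)) =
      1 - (1 + t) * x + (x ^ 2 / (1 + x) + t * (x ^ 2 * (2 + x) / (1 + x) ^ 2)) := by
    field_simp
    ring
  rw [e]
  have h4 : x ^ 2 / (1 + x) ≤ x ^ 2 / (1 - η) ^ 2 :=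
    div_le_div_of_nonneg_left (sq_nonneg x) (by positivity) (by nlinarith)
  have h5 : x ^ 2 * (2 + x) / (1 + x) ^ 2 ≤ 2 * (x ^ 2 / (1 - η) ^ 2) := by
    have h6 : (2 + x) / (1 + x) ^ 2 ≤ 2 / (1 - η) ^ 2 := by
      rcases le_total x 0 with hx0 | hx0
      · exact div_le_div₀ (by norm_num) (by linarith) (by positivity)
          (pow_le_pow_left₀ hη'.le (by linarith) 2)
      · have h7 : (2 + x) / (1 + x) ^ 2 ≤ 2 := by
          rw [div_le_iff₀ (by positivity)]
          nlinarith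
        refine h7.trans ((le_div_iff₀ (by positivity)).2 ?_)
        nlinarith
    calc x ^ 2 * (2 + x) / (1 + x) ^ 2 = x ^ 2 * ((2 + x) / (1 + x) ^ 2) := by ring
      _ ≤ x ^ 2 * (2 / (1 - η) ^ 2) := mul_le_mul_of_nonneg_left h6 (sq_nonneg x)
      _ = _ := by ring
  have h8 : (1 + 2 * t) / (1 - η) ^ 2 * x ^ 2 =
      x ^ 2 / (1 - η) ^ 2 + t * (2 * (x ^ 2 / (1 - η) ^ 2)) := by ring
  rw [h8]
  linarith [mul_le_mul_of_nonneg_left h5 ht0]

/-! ## The potential -/

/-- `(R + |π x| ^ 2) ^ (- s)` -/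
noncomputable def pot (π : Fin m → Fin d → ℝ) (R s : ℝ) (x : Fin d → ℤ) : ℝ :=
  (R + lat π x) ^ (-s)

/-- One step of a good row decreases the potential by the next one. -/
theorem drift_le {π : Fin m → Fin d → ℝ} {θ θ' : ℝ} {p : Fin d × Bool → ℝ} (hp : GoodRow π θ p)
    (hθ : θ ≤ θ') (hθ' : 1 / 8 ≤ θ') {s K η R : ℝ} (hK : 0 ≤ K) (hη0 : 0 < η) (hη : η < 1)
    (h : ∀ x, -η ≤ x → (1 + x) ^ (-s) ≤ 1 - s * x + K * x ^ 2) (hR : 0 < R)
    (hR1 : ∀ e : Fin d × Bool, 2 * (1 + 1 / η) * lat π (stepVec e) ≤ R)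
    (hR2 : ∀ e : Fin d × Bool, (2 / η + 1) * lat π (stepVec e) ≤ η * R) (x : Fin d → ℤ) :
    ∑ e, p e * pot π R s (x + stepVec e) +
        (s - 4 * θ' * (1 + η) * K) * mass π p * pot π R (1 + s) x ≤ pot π R s x := by
  classical
  have hL0 := lat_nonneg π x
  have hD : 0 < R + lat π x := by linarith
  set D := R + lat π x with hDdef
  set f := D ^ (-s) with hf
  have hf0 : 0 ≤ f := Real.rpow_nonneg hD.le _
  have hm0 : 0 ≤ mass π p := mass_nonneg π fun e => (hp.pos e).le
  set a : Fin d × Bool → ℝ := fun e => ∑ k, proj π x k * proj π (stepVec e) k with ha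
  set y : Fin d × Bool → ℝ := fun e => 2 * a e + lat π (stepVec e) with hy
  have hb : ∀ e, 0 ≤ lat π (stepVec e) := fun e => lat_nonneg π _
  have habs : ∀ e, -(η * D) ≤ y e := by
    intro e
    have h1 : a e ^ 2 ≤ lat π x * lat π (stepVec e) := sum_mul_sq_le_sq_mul_sq _ _ _
    have h3 : η / 2 * lat π x * (2 / η * lat π (stepVec e)) = lat π x * lat π (stepVec e) := by
      field_simp
    have h2 := abs_le.1 (abs_le_of_sq_le_sq (a := 2 * a e)
      (b := η / 2 * lat π x + 2 / η * lat π (stepVec e))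
      (by nlinarith [sq_nonneg (η / 2 * lat π x - 2 / η * lat π (stepVec e))])
      (by have := hb e; positivity))
    have h4 := hR2 e
    have h5 := mul_nonneg hη0.le hL0
    simp only [hy, hDdef]
    nlinarith [hb e]
  have hterm : ∀ e, pot π R s (x + stepVec e) ≤ f * (1 - s * (y e / D) + K * (y e / D) ^ 2) := by
    intro e
    have hy' : -η ≤ y e / D := by
      rw [le_div_iff₀ hD]
      linarith [habs e]
    rw [pot, lat_add, show R + (lat π x + (2 * (∑ k, proj π x k * proj π (stepVec e) k) +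
      lat π (stepVec e))) = D * (1 + y e / D) by
        rw [mul_add, mul_one, mul_div_cancel₀ _ hD.ne', hDdef]
        simp only [hy, ha]
        ring, Real.mul_rpow hD.le (by linarith), hf]
    exact mul_le_mul_of_nonneg_left (h _ hy') (Real.rpow_nonneg hD.le _)
  have hmean : ∑ e, p e * y e = mass π p := by
    have h1 : ∑ e, p e * a e = 0 := by
      simp only [ha, mul_sum]
      rw [sum_comm]
      refine sum_eq_zero fun k _ => ?_
      rw [show ∑ e, p e * (proj π x k * proj π (stepVec e) k) =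
        proj π x k * ∑ e, p e * proj π (stepVec e) k by
          rw [mul_sum]; exact sum_congr rfl fun e _ => by ring]
      rw [hp.centred k, mul_zero]
    calc ∑ e, p e * y e = 2 * (∑ e, p e * a e) + mass π p := by
          simp only [hy, mass, mul_sum, ← sum_add_distrib]
          exact sum_congr rfl fun e _ => by ring
      _ = _ := by rw [h1]; ring
  have hsq : ∑ e, p e * y e ^ 2 ≤ 4 * θ' * (1 + η) * mass π p * D := by
    have h1 : ∀ e, p e * y e ^ 2 ≤
        4 * (1 + η) * (p e * a e ^ 2) + R / 2 * (p e * lat π (stepVec e)) := by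
      intro e
      have h2 : y e ^ 2 ≤ 4 * (1 + η) * a e ^ 2 + (1 + 1 / η) * lat π (stepVec e) ^ 2 := by
        have h3 : 0 ≤ (2 * η * a e - lat π (stepVec e)) ^ 2 / η := by positivity
        have h4 : (2 * η * a e - lat π (stepVec e)) ^ 2 / η = 4 * η * a e ^ 2 -
            4 * a e * lat π (stepVec e) + 1 / η * lat π (stepVec e) ^ 2 := by
          field_simp
          ring
        simp only [hy]
        linarith
      have h5 : (1 + 1 / η) * lat π (stepVec e) ^ 2 ≤ R / 2 * lat π (stepVec e) := by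
        have := mul_le_mul_of_nonneg_right (hR1 e) (hb e)
        linarith
      have h6 := mul_le_mul_of_nonneg_left (h2.trans (add_le_add le_rfl h5)) (hp.pos e).le
      linarith
    have h7 : ∑ e, p e * a e ^ 2 ≤ θ' * lat π x * mass π p :=
      (hp.share (proj π x)).trans (mul_le_mul_of_nonneg_right
        (mul_le_mul_of_nonneg_right hθ hL0) hm0)
    have h8 : R / 2 ≤ 4 * θ' * (1 + η) * R := by
      have : (1 : ℝ) / 2 ≤ 4 * θ' * (1 + η) := by nlinarith
      nlinarith
    refine (sum_le_sum fun e _ => h1 e).trans ?_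
    rw [sum_add_distrib, ← mul_sum, ← mul_sum, show (∑ e, p e * lat π (stepVec e)) = mass π p from rfl]
    have h9 := mul_le_mul_of_nonneg_right h8 hm0
    have h10 := mul_le_mul_of_nonneg_left h7 (show (0 : ℝ) ≤ 4 * (1 + η) by linarith)
    rw [hDdef]
    linarith
  have h5 : ∑ e, p e * pot π R s (x + stepVec e) ≤
      f * (1 - s * (mass π p / D) + K * (4 * θ' * (1 + η) * mass π p * D / D ^ 2)) := by
    refine (sum_le_sum fun e _ => mul_le_mul_of_nonneg_left (hterm e) (hp.pos e).le).trans ?_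
    have e1 : ∑ e, p e * (f * (1 - s * (y e / D) + K * (y e / D) ^ 2)) =
        f * ((∑ e, p e) - s * ((∑ e, p e * y e) / D) + K * ((∑ e, p e * y e ^ 2) / D ^ 2)) := by
      simp only [sum_div, mul_sum, ← sum_sub_distrib, ← sum_add_distrib]
      exact sum_congr rfl fun e _ => by ring
    rw [e1, hp.sum, hmean]
    exact mul_le_mul_of_nonneg_left (add_le_add le_rfl (mul_le_mul_of_nonneg_left
      (div_le_div_of_nonneg_right hsq (by positivity)) hK)) hf0
  have e2 : pot π R (1 + s) x = f / D := by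
    rw [pot, ← hDdef, neg_add, add_comm, Real.rpow_add hD, Real.rpow_neg_one, hf, div_eq_mul_inv]
  have e3 : f * (1 - s * (mass π p / D) + K * (4 * θ' * (1 + η) * mass π p * D / D ^ 2)) =
      f - (s - 4 * θ' * (1 + η) * K) * mass π p * (f / D) := by
    field_simp
    ring
  rw [e2, show pot π R s x = f from rfl]
  linarith

/-- Constants for which both potentials work. -/
theorem exists_params (π : Fin m → Fin d → ℝ) {θ : ℝ} (hθ : θ < 1 / 4) :
    ∃ t R κ : ℝ, 0 < t ∧ 1 ≤ R ∧ 0 < κ ∧ ∀ p : Fin d × Bool → ℝ,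
      GoodRow π θ p → ∀ x : Fin d → ℤ,
      ∑ e, p e * pot π R t (x + stepVec e) + κ * mass π p * pot π R (1 + t) x ≤ pot π R t x ∧
      ∑ e, p e * pot π R (1 + t) (x + stepVec e) ≤ pot π R (1 + t) x := by
  set θ' := max θ (1 / 8) with hθ'
  set a := 1 - 4 * θ' with ha
  have h8 : 1 / 8 ≤ θ' := le_max_right _ _
  have ha0 : 0 < a := by
    have : θ' < 1 / 4 := max_lt hθ (by norm_num)
    rw [ha]; linarith
  have ha1 : a ≤ 1 / 2 := by rw [ha]; linarith
  set η := a / 16 with hη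
  set t := a / 2 with ht
  have hη0 : 0 < η := by positivity
  have hη1 : η < 1 := by rw [hη]; linarith
  set B := ∑ e : Fin d × Bool, lat π (stepVec e)
  set R := 1 + 2 * (1 + 1 / η) * B + (2 / η + 1) * B / η with hR
  have hB : ∀ e : Fin d × Bool, lat π (stepVec e) ≤ B := fun e =>
    single_le_sum (f := fun e => lat π (stepVec e)) (fun e _ => lat_nonneg π _) (mem_univ e)
  have hB0 : 0 ≤ B := sum_nonneg fun e _ => lat_nonneg π _
  have hRa : 0 ≤ 2 * (1 + 1 / η) * B := by positivity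
  have hRb : 0 ≤ (2 / η + 1) * B / η := by positivity
  have hR1 : ∀ e : Fin d × Bool, 2 * (1 + 1 / η) * lat π (stepVec e) ≤ R := fun e => by
    have := mul_le_mul_of_nonneg_left (hB e) (show (0 : ℝ) ≤ 2 * (1 + 1 / η) by positivity)
    linarith
  have hR2 : ∀ e : Fin d × Bool, (2 / η + 1) * lat π (stepVec e) ≤ η * R := fun e => by
    have h1 := mul_le_mul_of_nonneg_left (hB e) (show (0 : ℝ) ≤ 2 / η + 1 by positivity)
    have h2 : η * ((2 / η + 1) * B / η) = (2 / η + 1) * B := by field_simp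
    have h3 := mul_le_mul_of_nonneg_left (show (2 / η + 1) * B / η ≤ R by linarith) hη0.le
    linarith
  have e4 : 4 * θ' = 1 - a := by rw [ha]; ring
  have hκ : 0 < t - 4 * θ' * (1 + η) * (t / (1 - η)) := by
    rw [sub_pos, mul_div_assoc', div_lt_iff₀ (by linarith), e4]
    have h1 : 0 < t * (a * (1 + η) - 2 * η) :=
      mul_pos (by positivity) (by rw [hη]; nlinarith)
    linarith
  have hneg : 0 ≤ 1 + t - 4 * θ' * (1 + η) * ((1 + 2 * t) / (1 - η) ^ 2) := by
    rw [sub_nonneg, mul_div_assoc', div_le_iff₀ (by nlinarith), e4, ht, hη]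
    nlinarith [sq_nonneg a, pow_pos ha0 3, mul_pos ha0 ha0]
  refine ⟨t, R, t - 4 * θ' * (1 + η) * (t / (1 - η)), by positivity, by linarith, hκ,
    fun p hp x => ⟨?_, ?_⟩⟩
  · exact drift_le hp (le_max_left _ _) h8 (div_nonneg (by positivity) (by linarith)) hη0 hη1
      (fun y hy => rpow_neg_le (by positivity) (by rw [ht]; linarith) hη1 hy) (by linarith) hR1 hR2 x
  · have h1 := drift_le hp (le_max_left _ _) h8 (div_nonneg (by positivity) (by positivity)) hη0 hη1
      (fun y hy => rpow_neg_one_le (t := t) (by positivity) (by rw [ht]; linarith) hη0.le hη1 hy)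
      (by linarith) hR1 hR2 x
    have h2 : 0 ≤ (1 + t - 4 * θ' * (1 + η) * ((1 + 2 * t) / (1 - η) ^ 2)) * mass π p *
        pot π R (1 + (1 + t)) x :=
      mul_nonneg (mul_nonneg hneg (mass_nonneg π fun e => (hp.pos e).le))
        (Real.rpow_nonneg (by linarith [lat_nonneg π x]) _)
    linarith

end Vale.Agent.P147.Balanced
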